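import Crest.Agent.R009.Defs

/-!
Basic facts on `Pth`, `FX`, `PEq`.
-/

set_option autoImplicit false
set_option linter.unusedSectionVars false

namespace Crest.Agent.R009

variable {p : ℕ} [Fact p.Prime] {K : Type*} [Field K] [CharP K p]

open Finset

theorem pth_zero : Pth p (0 : K) := ⟨0, by rw [zero_pow (Fact.out : p.Prime).ne_zero]⟩

theorem pth_one : Pth p (1 : K) := ⟨1, by rw [one_pow]⟩

theorem pth_pow (a : K) : Pth p (a ^ p) := ⟨a, rfl⟩

theorem Pth.mul {x y : K} (hx : Pth p x) (hy : Pth p y) : Pth p (x * y) := by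
  obtain ⟨a, rfl⟩ := hx
  obtain ⟨b, rfl⟩ := hy
  exact ⟨a * b, (mul_pow a b p).symm⟩

theorem Pth.inv {x : K} (hx : Pth p x) : Pth p x⁻¹ := by
  obtain ⟨a, rfl⟩ := hx
  exact ⟨a⁻¹, (inv_pow a p).symm⟩

theorem Pth.div {x y : K} (hx : Pth p x) (hy : Pth p y) : Pth p (x / y) := by
  rw [div_eq_mul_inv]
  exact hx.mul hy.inv

theorem Pth.add {x y : K} (hx : Pth p x) (hy : Pth p y) : Pth p (x + y) := by
  obtain ⟨a, rfl⟩ := hx
  obtain ⟨b, rfl⟩ := hy
  exact ⟨a + b, (add_pow_char a b p).symm⟩

theorem Pth.neg {x : K} (hx : Pth p x) : Pth p (-x) := by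
  have h : Pth p (-1 : K) := ⟨-1, (neg_one_pow_char K p).symm⟩
  simpa using h.mul hx

theorem Pth.sub {x y : K} (hx : Pth p x) (hy : Pth p y) : Pth p (x - y) := by
  rw [sub_eq_add_neg]
  exact hx.add hy.neg

theorem Pth.mem_FX {x y : K} (hy : Pth p y) : y ∈ FX p x := by
  obtain ⟨a, rfl⟩ := hy
  exact Subfield.subset_closure (Or.inl ⟨a, rfl⟩)

theorem self_mem_FX (x : K) : x ∈ FX p x := Subfield.subset_closure (Or.inr rfl)

/-- the subfield of `p`-th powers. -/
def PF (p : ℕ) [Fact p.Prime] (K : Type*) [Field K] [CharP K p] : Subfield K where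
  carrier := {x | Pth p x}
  mul_mem' := Pth.mul
  one_mem' := pth_one
  add_mem' := Pth.add
  zero_mem' := pth_zero
  neg_mem' := Pth.neg
  inv_mem' := fun _ => Pth.inv

theorem mem_PF {x : K} : x ∈ PF p K ↔ Pth p x := Iff.rfl

/-- induction for membership in a closure of `p`-th powers -/
theorem FX_le_of {x : K} {M : Subfield K} (hM : ∀ a : K, a ^ p ∈ M) (hx : x ∈ M) : FX p x ≤ M := by
  refine Subfield.closure_le.mpr ?_
  rintro y (⟨a, rfl⟩ | rfl)
  · exact hM a
  · exact hx

theorem FX_le {x y : K} (h : y ∈ FX p x) : FX p y ≤ FX p x :=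
  FX_le_of (fun a => (pth_pow a).mem_FX) h

theorem mem_FX_of_pth {x y : K} (hx : Pth p x) : y ∈ FX p x ↔ Pth p y := by
  constructor
  · intro h
    exact FX_le_of (M := PF p K) (fun a => pth_pow a) hx h
  · exact fun h => h.mem_FX

/-- degree of a simple extension: exchange over a subfield `M` containing the `p`-th powers.
`M(x)` is `IntermediateField.adjoin M {x}`. -/
theorem finrank_adjoin {M : Subfield K} (hM : ∀ a : K, a ^ p ∈ M) {x : K} (hx : x ∉ M) :
    Module.finrank M (IntermediateField.adjoin M ({x} : Set K)) = p ∧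
      minpoly M x = Polynomial.X ^ p - Polynomial.C (⟨x ^ p, hM x⟩ : M) := by
  have hirr : Irreducible (Polynomial.X ^ p - Polynomial.C (⟨x ^ p, hM x⟩ : M)) := by
    refine X_pow_sub_C_irreducible_of_prime (Fact.out : p.Prime) ?_
    intro b hb
    apply hx
    have h1 : ((b : K)) ^ p = x ^ p := by
      have := congrArg (Subtype.val) hb
      simpa using this
    have h2 : (b : K) = x := by
      have := frobenius_inj K p
      exact this (by simpa [frobenius_def] using h1)
    rw [← h2]
    exact b.2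
  have hmon : (Polynomial.X ^ p - Polynomial.C (⟨x ^ p, hM x⟩ : M)).Monic :=
    Polynomial.monic_X_pow_sub_C _ (Fact.out : p.Prime).ne_zero
  have hroot : Polynomial.aeval x (Polynomial.X ^ p - Polynomial.C (⟨x ^ p, hM x⟩ : M)) = 0 := by
    simp only [map_sub, map_pow, Polynomial.aeval_X, Polynomial.aeval_C]
    exact sub_self _
  have hmin := minpoly.eq_of_irreducible_of_monic hirr hroot hmon
  have hint : IsIntegral M x := ⟨_, hmon, hroot⟩
  refine ⟨?_, hmin.symm⟩
  rw [IntermediateField.adjoin.finrank hint, ← hmin]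
  exact Polynomial.natDegree_X_pow_sub_C


/-- the subfield `M(x)` -/
def adj (M : Subfield K) (x : K) : Subfield K := (IntermediateField.adjoin M ({x} : Set K)).toSubfield

theorem mem_adj {M : Subfield K} {x y : K} :
    y ∈ adj M x ↔ y ∈ IntermediateField.adjoin M ({x} : Set K) := Iff.rfl

theorem self_mem_adj (M : Subfield K) (x : K) : x ∈ adj M x :=
  IntermediateField.mem_adjoin_simple_self M x

theorem le_adj (M : Subfield K) (x : K) : M ≤ adj M x := fun y hy =>
  (IntermediateField.adjoin M ({x} : Set K)).algebraMap_mem ⟨y, hy⟩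

theorem adj_le {M N : Subfield K} {x : K} (hMN : M ≤ N) (hx : x ∈ N) : adj M x ≤ N := by
  let N' : IntermediateField M K :=
    { N with
      algebraMap_mem' := fun r => hMN r.2 }
  have h : IntermediateField.adjoin M ({x} : Set K) ≤ N' := by
    rw [IntermediateField.adjoin_le_iff]
    rintro y rfl
    exact hx
  intro y hy
  exact h hy

theorem FX_eq_adj (x : K) : FX p x = adj (PF p K) x := by
  apply le_antisymm
  · exact FX_le_of (fun a => le_adj _ _ (pth_pow a)) (self_mem_adj _ _)
  · exact adj_le (fun y hy => Pth.mem_FX hy) (self_mem_FX x)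

theorem adj_exchange {M : Subfield K} (hM : ∀ a : K, a ^ p ∈ M) {x z : K} (hx : x ∈ adj M z)
    (hxM : x ∉ M) : z ∈ adj M x := by
  have hzM : z ∉ M := fun h => hxM (adj_le le_rfl h hx)
  have h1 := (finrank_adjoin hM hxM).1
  have h2 := (finrank_adjoin hM hzM).1
  have hp : 0 < p := (Fact.out : p.Prime).pos
  have hle : IntermediateField.adjoin M ({x} : Set K) ≤ IntermediateField.adjoin M ({z} : Set K) := by
    rw [IntermediateField.adjoin_le_iff]
    rintro y rfl
    exact hx
  have : FiniteDimensional M (IntermediateField.adjoin M ({z} : Set K)) := by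
    apply Module.finite_of_finrank_pos
    omega
  have heq := IntermediateField.eq_of_le_of_finrank_eq hle (by rw [h1, h2])
  rw [mem_adj, heq]
  exact IntermediateField.mem_adjoin_simple_self M z

theorem FX_exchange {x y : K} (h : y ∈ FX p x) (hy : ¬ Pth p y) : x ∈ FX p y := by
  rw [FX_eq_adj] at h ⊢
  exact adj_exchange (fun a => pth_pow a) h hy

theorem FX_eq {x y : K} (h : y ∈ FX p x) (hy : ¬ Pth p y) : FX p y = FX p x :=
  le_antisymm (FX_le h) (FX_le (FX_exchange h hy))

/-- explicit form of the elements of `K^p(x)` -/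
theorem mem_FX_iff {x y : K} :
    y ∈ FX p x ↔ ∃ a : ℕ → K, y = ∑ i ∈ range p, (a i) ^ p * x ^ i := by
  constructor
  · intro h
    rw [FX_eq_adj, mem_adj] at h
    set q : Polynomial (PF p K) :=
      Polynomial.X ^ p - Polynomial.C (⟨x ^ p, pth_pow x⟩ : PF p K) with hq
    have hmon : q.Monic := Polynomial.monic_X_pow_sub_C _ (Fact.out : p.Prime).ne_zero
    have hroot : Polynomial.aeval x q = 0 := by
      simp only [hq, map_sub, map_pow, Polynomial.aeval_X, Polynomial.aeval_C]
      exact sub_self _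
    have hint : IsAlgebraic (PF p K) x := ⟨q, hmon.ne_zero, hroot⟩
    have h' : y ∈ (IntermediateField.adjoin (PF p K) ({x} : Set K)).toSubalgebra := h
    rw [IntermediateField.adjoin_simple_toSubalgebra_of_isAlgebraic hint,
      Algebra.adjoin_singleton_eq_range_aeval] at h'
    obtain ⟨P, hP⟩ := h'
    have hP' : Polynomial.aeval x (P %ₘ q) = y := by
      rw [Polynomial.aeval_modByMonic_eq_self_of_root hroot]
      exact hP
    have hdeg : (P %ₘ q).natDegree < p := by
      have h1 : q.natDegree = p := Polynomial.natDegree_X_pow_sub_C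
      have h2 := Polynomial.natDegree_modByMonic_lt P hmon (by
        intro h3
        rw [h3, Polynomial.natDegree_one] at h1
        exact (Fact.out : p.Prime).ne_zero h1.symm)
      omega
    rw [Polynomial.aeval_eq_sum_range' hdeg] at hP'
    have hc : ∀ i, ∃ a : K, (((P %ₘ q).coeff i : PF p K) : K) = a ^ p := fun i => ((P %ₘ q).coeff i).2
    choose a ha using hc
    refine ⟨a, ?_⟩
    rw [← hP']
    refine Finset.sum_congr rfl (fun i _ => ?_)
    rw [← ha i]
    rfl
  · rintro ⟨a, rfl⟩
    refine Subfield.sum_mem _ (fun i _ => ?_)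
    exact mul_mem (pth_pow (a i)).mem_FX (pow_mem (self_mem_FX x) i)

/-- linear independence of `1, x, …, x^(p-1)` over `K^p` -/
theorem coeff_eq_zero {x : K} (hx : ¬ Pth p x) {a : ℕ → K}
    (h : ∑ i ∈ range p, (a i) ^ p * x ^ i = 0) : ∀ i < p, a i = 0 := by
  have hmin := (finrank_adjoin (M := PF p K) (fun a => pth_pow a) hx).2
  set P : Polynomial (PF p K) :=
    ∑ i ∈ range p, Polynomial.C (⟨(a i) ^ p, pth_pow (a i)⟩ : PF p K) * Polynomial.X ^ i with hP
  have hroot : Polynomial.aeval x P = 0 := by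
    rw [← h, hP, map_sum]
    refine Finset.sum_congr rfl (fun i _ => ?_)
    simp only [map_mul, map_pow, Polynomial.aeval_X, Polynomial.aeval_C]
    rfl
  have hdegP : P.degree < p := by
    rw [hP]
    refine lt_of_le_of_lt (Polynomial.degree_sum_le _ _) ?_
    rw [Finset.sup_lt_iff (by exact_mod_cast WithBot.bot_lt_coe p)]
    intro i hi
    refine lt_of_le_of_lt (Polynomial.degree_C_mul_X_pow_le i _) ?_
    exact_mod_cast Finset.mem_range.mp hi
  have hP0 : P = 0 := by
    by_contra hne
    have h1 := minpoly.degree_le_of_ne_zero (PF p K) x hne hroot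
    rw [hmin, Polynomial.degree_X_pow_sub_C (Fact.out : p.Prime).pos] at h1
    exact absurd (lt_of_le_of_lt h1 hdegP) (lt_irrefl _)
  intro i hi
  have hci : P.coeff i = (⟨(a i) ^ p, pth_pow (a i)⟩ : PF p K) := by
    rw [hP, Polynomial.finsetSum_coeff]
    rw [Finset.sum_eq_single i]
    · simp
    · intro j _ hj
      simp [Polynomial.coeff_X_pow, Ne.symm hj]
    · intro hn
      exact absurd (Finset.mem_range.mpr hi) hn
  rw [hP0, Polynomial.coeff_zero] at hci
  have : (a i) ^ p = 0 := (congrArg Subtype.val hci).symm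
  exact pow_eq_zero_iff (Fact.out : p.Prime).ne_zero |>.mp this

/-- kernel of a derivation, as a subfield -/
def kerD (D : Derivation ℤ K K) : Subfield K where
  carrier := {x | D x = 0}
  mul_mem' := by
    intro a b ha hb
    simp only [Set.mem_ofPred_eq] at *
    simp [Derivation.leibniz, ha, hb]
  one_mem' := D.map_one_eq_zero
  add_mem' := by
    intro a b ha hb
    simp only [Set.mem_ofPred_eq] at *
    simp [ha, hb]
  zero_mem' := D.map_zero
  neg_mem' := by
    intro a ha
    simp only [Set.mem_ofPred_eq] at *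
    simp [ha]
  inv_mem' := by
    intro a ha
    simp only [Set.mem_ofPred_eq] at *
    simp [Derivation.leibniz_inv, ha]

theorem mem_kerD {D : Derivation ℤ K K} {x : K} : x ∈ kerD D ↔ D x = 0 := Iff.rfl

theorem D_pow_p (D : Derivation ℤ K K) (a : K) : D (a ^ p) = 0 := by
  rw [Derivation.leibniz_pow]
  simp

theorem D_pth (D : Derivation ℤ K K) {x : K} (hx : Pth p x) : D x = 0 := by
  obtain ⟨a, rfl⟩ := hx
  exact D_pow_p D a

theorem D_eq_zero_of_mem_FX {D : Derivation ℤ K K} {x y : K} (hx : D x = 0) (hy : y ∈ FX p x) :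
    D y = 0 :=
  FX_le_of (M := kerD D) (fun a => D_pow_p D a) hx hy

/-- a subfield `M ⊇ K^p` with `x ∉ M` is killed by a derivation not killing `x`. -/
theorem exists_derivation {M : Subfield K} (hM : ∀ a : K, a ^ p ∈ M) {x : K} (hx : x ∉ M) :
    ∃ D : Derivation ℤ K K, (∀ y ∈ M, D y = 0) ∧ D x ≠ 0 := by
  classical
  -- a maximal subfield containing `M` and not `x`
  obtain ⟨N, hMN, hN⟩ := zorn_le_nonempty₀ {N : Subfield K | M ≤ N ∧ x ∉ N} (by
    intro c hc hchain N₀ hN₀
    refine ⟨sSup c, ⟨?_, ?_⟩, fun N hN => le_sSup hN⟩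
    · exact le_trans (hc hN₀).1 (le_sSup hN₀)
    · intro hxs
      rw [Subfield.mem_sSup_of_directedOn ⟨N₀, hN₀⟩ hchain.directedOn] at hxs
      obtain ⟨N, hN, hxN⟩ := hxs
      exact (hc hN).2 hxN) M ⟨le_rfl, hx⟩
  have hxN : x ∉ N := hN.1.2
  have hpN : ∀ a : K, a ^ p ∈ N := fun a => hMN (hM a)
  -- `K = N(x)`
  have htop : ∀ z : K, z ∈ adj N x := by
    intro z
    by_cases hz : z ∈ N
    · exact le_adj N x hz
    · have hxz : x ∈ adj N z := by
        by_contra hcon
        have h1 : adj N z ≤ N := hN.2 ⟨le_trans hMN (le_adj N z), hcon⟩ (le_adj N z)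
        exact hz (h1 (self_mem_adj N z))
      exact adj_exchange hpN hxz hxN
  -- `K / N` is finite, purely inseparable, and not separable
  have htop' : IntermediateField.adjoin N ({x} : Set K) = ⊤ := by
    rw [eq_top_iff]
    intro z _
    exact htop z
  have hfin : FiniteDimensional N K := by
    have h1 := (finrank_adjoin hpN hxN).1
    rw [htop'] at h1
    rw [IntermediateField.finrank_top'] at h1
    apply Module.finite_of_finrank_pos
    rw [h1]
    exact (Fact.out : p.Prime).pos
  have hnsep : ¬ Algebra.IsSeparable N K := by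
    intro hsep
    have h1 : (minpoly N x).Separable := Algebra.IsSeparable.isSeparable N x
    rw [(finrank_adjoin hpN hxN).2] at h1
    have hder : Polynomial.derivative
        (Polynomial.X ^ p - Polynomial.C (⟨x ^ p, hpN x⟩ : N)) = 0 := by
      rw [Polynomial.derivative_sub, Polynomial.derivative_C, sub_zero,
        Polynomial.derivative_X_pow]
      have : ((p : ℕ) : N) = 0 := by
        apply Subtype.ext
        simp
      rw [this]
      simp
    rw [Polynomial.separable_def, hder] at h1
    have h2 : IsUnit (Polynomial.X ^ p - Polynomial.C (⟨x ^ p, hpN x⟩ : N)) :=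
      isCoprime_zero_right.mp h1
    have h3 := Polynomial.degree_eq_zero_of_isUnit h2
    rw [Polynomial.degree_X_pow_sub_C (Fact.out : p.Prime).pos] at h3
    have : p = 0 := by exact_mod_cast h3
    exact (Fact.out : p.Prime).ne_zero this
  have hnunr : ¬ Algebra.FormallyUnramified N K := by
    intro hunr
    exact hnsep ((Algebra.FormallyUnramified.iff_isSeparable N K).mp hunr)
  -- a non-zero derivation
  by_contra hcon
  push Not at hcon
  apply hnunr
  rw [Algebra.formallyUnramified_iff]
  have hall : ∀ D : Derivation N K K, D = 0 := by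
    intro D
    ext z
    let D' : Derivation ℤ K K := D.restrictScalars ℤ
    have hker : ∀ y ∈ N, D' y = 0 := by
      intro y hy
      exact D.map_algebraMap ⟨y, hy⟩
    have hx0 : D' x = 0 := hcon D' (fun y hy => hker y (hMN hy))
    have h1 : adj N x ≤ kerD D' := adj_le (fun y hy => hker y hy) hx0
    exact h1 (htop z)
  have hlin : ∀ f : Ω[K⁄N] →ₗ[K] K, f = 0 := by
    intro f
    have := hall ((KaehlerDifferential.linearMapEquivDerivation N K) f)
    exact (LinearEquiv.map_eq_zero_iff _).mp this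
  refine ⟨fun a b => ?_⟩
  rw [← sub_eq_zero]
  exact (Module.forall_dual_apply_eq_zero_iff K _).mp (fun f => by rw [hlin f]; rfl)

/-- derivations dual to a `p`-independent pair -/
theorem exists_derivations {x y : K} (hx : ¬ Pth p x) (hy : y ∉ FX p x) :
    ∃ D₁ D₂ : Derivation ℤ K K, D₁ x = x ∧ D₁ y = 0 ∧ D₂ x = 0 ∧ D₂ y = y := by
  have hyp : ¬ Pth p y := fun h => hy h.mem_FX
  have hx' : x ∉ FX p y := fun h => hy (FX_exchange h hx)
  obtain ⟨D₁, h1, h1'⟩ := exists_derivation (fun a => (pth_pow a).mem_FX) hx'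
  obtain ⟨D₂, h2, h2'⟩ := exists_derivation (fun a => (pth_pow a).mem_FX) hy
  refine ⟨(x / D₁ x) • D₁, (y / D₂ y) • D₂, ?_, ?_, ?_, ?_⟩
  · simp only [Derivation.smul_apply, smul_eq_mul]
    field_simp
  · simp only [Derivation.smul_apply, smul_eq_mul]
    rw [h1 y (self_mem_FX y), mul_zero]
  · simp only [Derivation.smul_apply, smul_eq_mul]
    rw [h2 x (self_mem_FX x), mul_zero]
  · simp only [Derivation.smul_apply, smul_eq_mul]
    field_simp

end Crest.Agent.R009
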