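import Crest.Agent.R009.Basic

/-!
The configuration lemma.
-/

set_option autoImplicit false
set_option linter.unusedSectionVars false

namespace Crest.Agent.R009

variable {p : ℕ} [Fact p.Prime] {K : Type*} [Field K] [CharP K p]

open Finset

theorem natCast_pow_p (i : ℕ) : (i : K) ^ p = (i : K) := by
  have h := map_natCast (frobenius K p) i
  rw [frobenius_def] at h
  exact h

theorem D_pow_of_eq {D : Derivation ℤ K K} {x : K} (hD : D x = x) (i : ℕ) :
    D (x ^ i) = (i : K) * x ^ i := by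
  rw [Derivation.leibniz_pow, hD]
  rcases Nat.eq_zero_or_pos i with rfl | hi
  · simp
  · obtain ⟨j, rfl⟩ : ∃ j, i = j + 1 := ⟨i - 1, by omega⟩
    simp only [Nat.add_sub_cancel, smul_eq_mul, nsmul_eq_mul, pow_succ]

theorem D_sum {D : Derivation ℤ K K} {x : K} (hD : D x = x) (a : ℕ → K) :
    D (∑ i ∈ range p, (a i) ^ p * x ^ i) = ∑ i ∈ range p, (i : K) * ((a i) ^ p * x ^ i) := by
  rw [map_sum]
  refine Finset.sum_congr rfl (fun i _ => ?_)
  rw [Derivation.leibniz, D_pow_p (p := p) D (a i), D_pow_of_eq hD]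
  simp only [smul_eq_mul, mul_zero, add_zero]
  ring

theorem D_mem_FX {D : Derivation ℤ K K} {x w : K} (hD : D x = x) (hw : w ∈ FX p x) :
    D w ∈ FX p x := by
  obtain ⟨a, rfl⟩ := mem_FX_iff.mp hw
  rw [D_sum hD]
  refine Subfield.sum_mem _ (fun i _ => ?_)
  exact mul_mem (natCast_mem _ i) (mul_mem (pth_pow (a i)).mem_FX (pow_mem (self_mem_FX x) i))

/-- eigenvectors of the derivation `x d/dx` -/
theorem eigen {D : Derivation ℤ K K} {x w c : K} (hx : ¬ Pth p x) (hD : D x = x)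
    (hw : w ∈ FX p x) (hw0 : w ≠ 0) (hc : Pth p c) (h : D w = c * w) :
    ∃ i : ℕ, i < p ∧ c = (i : K) ∧ ∃ r : K, w = r ^ p * x ^ i := by
  obtain ⟨a, ha⟩ := mem_FX_iff.mp hw
  obtain ⟨g, rfl⟩ := hc
  have h1 : ∑ i ∈ range p, (((i : K) - g) * a i) ^ p * x ^ i = 0 := by
    have h2 : ∑ i ∈ range p, (((i : K) - g) * a i) ^ p * x ^ i =
        ∑ i ∈ range p, (i : K) * ((a i) ^ p * x ^ i) - g ^ p * ∑ i ∈ range p, (a i) ^ p * x ^ i := by
      rw [Finset.mul_sum, ← Finset.sum_sub_distrib]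
      refine Finset.sum_congr rfl (fun i _ => ?_)
      rw [mul_pow, sub_pow_char, natCast_pow_p]
      ring
    rw [h2, ← D_sum hD, ← ha, h, sub_self]
  have h3 := coeff_eq_zero hx h1
  have h4 : ∃ i, i < p ∧ a i ≠ 0 := by
    by_contra hcon
    push Not at hcon
    apply hw0
    rw [ha]
    refine Finset.sum_eq_zero (fun i hi => ?_)
    rw [hcon i (Finset.mem_range.mp hi), zero_pow (Fact.out : p.Prime).ne_zero, zero_mul]
  obtain ⟨i, hi, hai⟩ := h4
  have hgi : g = (i : K) := by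
    have := h3 i hi
    rcases mul_eq_zero.mp this with h5 | h5
    · exact (sub_eq_zero.mp h5).symm
    · exact absurd h5 hai
  refine ⟨i, hi, by rw [hgi, natCast_pow_p], a i, ?_⟩
  rw [ha]
  refine Finset.sum_eq_single i (fun j hj hji => ?_) (fun hn => absurd (Finset.mem_range.mpr hi) hn)
  have hj' := Finset.mem_range.mp hj
  have h5 := h3 j hj'
  rcases mul_eq_zero.mp h5 with h6 | h6
  · exfalso
    apply hji
    rw [hgi, sub_eq_zero] at h6
    exact CharP.natCast_injOn_Iio K p hj' hi h6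
  · rw [h6, zero_pow (Fact.out : p.Prime).ne_zero, zero_mul]

theorem pth_of_D_eq_zero {D : Derivation ℤ K K} {x w : K} (hx : ¬ Pth p x) (hD : D x = x)
    (hw : w ∈ FX p x) (h : D w = 0) : Pth p w := by
  by_cases hw0 : w = 0
  · rw [hw0]; exact pth_zero
  obtain ⟨i, hi, hci, r, hr⟩ := eigen hx hD hw hw0 pth_zero (by rw [h, zero_mul])
  have hi0 : i = 0 := by
    have h0 : ((0 : ℕ) : K) = (i : K) := by rw [← hci]; simp
    exact (CharP.natCast_injOn_Iio K p (show (0:ℕ) < p from (Fact.out : p.Prime).pos) hi h0).symm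
  rw [hr, hi0, pow_zero, mul_one]
  exact pth_pow r

/-- the one-variable part of the configuration lemma: from `α - 1 = r^p x^i`, `α = u / D u`. -/
theorem config_one {D : Derivation ℤ K K} {x u : K} (hx : ¬ Pth p x) (hD : D x = x)
    (hu : u ∈ FX p x) (hu' : ∀ i < p, ∀ r : K, u ≠ r ^ p * x ^ i) {i : ℕ} (hi : i < p) (hi0 : 0 < i)
    {r : K} (hr : u / D u = 1 + r ^ p * x ^ i) (hr0 : r ≠ 0) (hDu : D u ≠ 0) :
    ∃ s : K, s ≠ 0 ∧ PEq p (u ^ (p - i)) (x ^ (p - i) + s ^ p) := by
  have hu0 : u ≠ 0 := by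
    intro h
    apply hDu
    rw [h]
    exact D.map_zero
  have hx0 : x ≠ 0 := by
    intro h
    apply hx
    rw [h]
    exact pth_zero
  set α := u / D u with hα
  have hα0 : α ≠ 0 := div_ne_zero hu0 hDu
  have hDuα : D u * α = u := by
    rw [hα]
    field_simp
  have hwα : x ^ (p - i) + (r * x) ^ p = x ^ (p - i) * α := by
    rw [hr, mul_add, mul_one, mul_pow]
    congr 1
    have : x ^ p = x ^ (p - i) * x ^ i := by
      rw [← pow_add]
      congr 1
      omega
    rw [this]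
    ring
  have hαmem : α ∈ FX p x := by
    rw [hα]
    exact div_mem hu (D_mem_FX hD hu)
  have hw0 : x ^ (p - i) * α ≠ 0 := mul_ne_zero (pow_ne_zero _ hx0) hα0
  set c := p - i with hc
  have hDα : D α = (i : K) * (α - 1) := by
    have h1 : α - 1 = r ^ p * x ^ i := by rw [hr]; ring
    have h2 : D α = D (α - 1) := by
      rw [map_sub, D.map_one_eq_zero, sub_zero]
    rw [h2, h1, Derivation.leibniz, D_pow_p (p := p) D r, D_pow_of_eq hD]
    simp only [smul_eq_mul, mul_zero, add_zero]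
    ring
  have hci : (c : K) = - (i : K) := by
    have h1 : ((c + i : ℕ) : K) = 0 := by
      have : c + i = p := by omega
      rw [this]
      exact CharP.cast_eq_zero K p
    rw [Nat.cast_add] at h1
    exact eq_neg_of_add_eq_zero_left h1
  have hDuc : D (u ^ c) * α = (c : K) * u ^ c := by
    rw [Derivation.leibniz_pow]
    obtain ⟨j, hj⟩ : ∃ j, c = j + 1 := ⟨c - 1, by omega⟩
    rw [hj]
    simp only [Nat.add_sub_cancel, smul_eq_mul, nsmul_eq_mul, pow_succ]
    calc ((j + 1 : ℕ) : K) * (u ^ j * D u) * α = ((j + 1 : ℕ) : K) * u ^ j * (D u * α) := by ring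
      _ = _ := by rw [hDuα]; ring
  have hDw : D (x ^ c * α) = (c : K) * x ^ c := by
    rw [Derivation.leibniz, D_pow_of_eq hD, hDα]
    simp only [smul_eq_mul]
    rw [hci]
    ring
  have hq : D (u ^ c / (x ^ c * α)) = 0 := by
    have h1 : u ^ c = (u ^ c / (x ^ c * α)) * (x ^ c * α) := by
      field_simp
    have h2 : D (u ^ c) = (u ^ c / (x ^ c * α)) * D (x ^ c * α) +
        (x ^ c * α) * D (u ^ c / (x ^ c * α)) := by
      conv_lhs => rw [h1]
      rw [Derivation.leibniz]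
      simp only [smul_eq_mul]
    rw [hDw] at h2
    have h3 : D (u ^ c) = (u ^ c / (x ^ c * α)) * ((c : K) * x ^ c) := by
      have h4 : D (u ^ c) = (c : K) * u ^ c / α := by
        rw [← hDuc]
        field_simp
      rw [h4]
      field_simp
    rw [h3] at h2
    have h5 : (x ^ c * α) * D (u ^ c / (x ^ c * α)) = 0 := by
      have := h2
      linear_combination -h2
    rcases mul_eq_zero.mp h5 with h6 | h6
    · exact absurd h6 hw0
    · exact h6
  have hmem : u ^ c / (x ^ c * α) ∈ FX p x :=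
    div_mem (pow_mem hu c) (mul_mem (pow_mem (self_mem_FX x) c) hαmem)
  obtain ⟨t, ht⟩ := pth_of_D_eq_zero hx hD hmem hq
  have ht0 : t ≠ 0 := by
    rintro rfl
    rw [zero_pow (Fact.out : p.Prime).ne_zero, div_eq_zero_iff] at ht
    rcases ht with h | h
    · exact pow_ne_zero _ hu0 h
    · exact hw0 h
  refine ⟨r * x, mul_ne_zero hr0 hx0, t, ht0, ?_⟩
  rw [hwα, ← ht]
  field_simp

theorem config {x y u v z : K} (hx : ¬ Pth p x) (hy : y ∉ FX p x)
    (hu : u ∈ FX p x) (hv : v ∈ FX p y)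
    (hu' : ∀ i < p, ∀ r : K, u ≠ r ^ p * x ^ i) (hv' : ∀ i < p, ∀ r : K, v ≠ r ^ p * y ^ i)
    (hz : z ≠ 0) (hz1 : z / y ∈ FX p (x / y)) (hz2 : z / v ∈ FX p (u / v)) :
    ∃ c : ℕ, 0 < c ∧ c < p ∧ (∃ r : K, r ≠ 0 ∧ PEq p (u ^ c) (x ^ c + r ^ p)) ∧
      (∃ s : K, s ≠ 0 ∧ PEq p (v ^ c) (y ^ c + s ^ p)) := by
  obtain ⟨D₁, D₂, h1x, h1y, h2x, h2y⟩ := exists_derivations hx hy
  have hyp : ¬ Pth p y := fun h => hy h.mem_FX
  have hx0 : x ≠ 0 := by
    rintro rfl
    exact hx pth_zero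
  have hy0 : y ≠ 0 := by
    rintro rfl
    exact hyp pth_zero
  have hD2u : D₂ u = 0 := D_eq_zero_of_mem_FX h2x hu
  have hD1v : D₁ v = 0 := D_eq_zero_of_mem_FX h1y hv
  have hu0 : u ≠ 0 := by
    intro h
    refine hu' 0 (Fact.out : p.Prime).pos 0 ?_
    rw [h, zero_pow (Fact.out : p.Prime).ne_zero, zero_mul]
  have hv0 : v ≠ 0 := by
    intro h
    refine hv' 0 (Fact.out : p.Prime).pos 0 ?_
    rw [h, zero_pow (Fact.out : p.Prime).ne_zero, zero_mul]
  -- no eigenvector
  have hune : ∀ c : K, Pth p c → D₁ u ≠ c * u := by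
    intro c hc h
    obtain ⟨i, hi, -, r, hr⟩ := eigen hx h1x hu hu0 hc h
    exact hu' i hi r hr
  have hvne : ∀ c : K, Pth p c → D₂ v ≠ c * v := by
    intro c hc h
    obtain ⟨i, hi, -, r, hr⟩ := eigen hyp h2y hv hv0 hc h
    exact hv' i hi r hr
  have hDu : D₁ u ≠ 0 := by
    have := hune 0 pth_zero
    rwa [zero_mul] at this
  have hDv : D₂ v ≠ 0 := by
    have := hvne 0 pth_zero
    rwa [zero_mul] at this
  obtain ⟨α, hα⟩ : ∃ α, α = u / D₁ u := ⟨_, rfl⟩
  obtain ⟨β, hβ⟩ : ∃ β, β = v / D₂ v := ⟨_, rfl⟩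
  have hαmem : α ∈ FX p x := hα ▸ div_mem hu (D_mem_FX h1x hu)
  have hβmem : β ∈ FX p y := hβ ▸ div_mem hv (D_mem_FX h2y hv)
  have hα0 : α ≠ 0 := hα ▸ div_ne_zero hu0 hDu
  have hβ0 : β ≠ 0 := hβ ▸ div_ne_zero hv0 hDv
  have hαu : α * D₁ u = u := by rw [hα]; field_simp
  have hβv : β * D₂ v = v := by rw [hβ]; field_simp
  have hα1 : α - 1 ≠ 0 := by
    intro h
    have : α = 1 := sub_eq_zero.mp h
    rw [this, one_mul] at hαu
    exact hune 1 pth_one (by rw [hαu, one_mul])
  have hβ1 : β - 1 ≠ 0 := by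
    intro h
    have : β = 1 := sub_eq_zero.mp h
    rw [this, one_mul] at hβv
    exact hvne 1 pth_one (by rw [hβv, one_mul])
  -- Euler equations
  have hE1 : D₁ z + D₂ z = z := by
    have h1 : (D₁ + D₂) (x / y) = 0 := by
      have h2 : x = (x / y) * y := by field_simp
      have h3 : (D₁ + D₂) x = (x / y) * (D₁ + D₂) y + y * (D₁ + D₂) (x / y) := by
        conv_lhs => rw [h2]
        rw [Derivation.leibniz]
        simp only [smul_eq_mul]
      simp only [Derivation.add_apply, h1x, h1y, h2x, h2y, add_zero, zero_add] at h3 ⊢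
      have h4 : y * (D₁ (x / y) + D₂ (x / y)) = 0 := by
        have h5 : x / y * y = x := by field_simp
        linear_combination -h3 - h5
      rcases mul_eq_zero.mp h4 with h6 | h6
      · exact absurd h6 hy0
      · exact h6
    have h2 : (D₁ + D₂) (z / y) = 0 := D_eq_zero_of_mem_FX h1 hz1
    have h3 : z = (z / y) * y := by field_simp
    have h4 : (D₁ + D₂) z = (z / y) * (D₁ + D₂) y + y * (D₁ + D₂) (z / y) := by
      conv_lhs => rw [h3]
      rw [Derivation.leibniz]
      simp only [smul_eq_mul]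
    rw [h2, mul_zero, add_zero] at h4
    simp only [Derivation.add_apply, h1y, h2y, zero_add] at h4
    rw [h4]
    exact h3.symm
  have hE2 : α * D₁ z + β * D₂ z = z := by
    set E := α • D₁ + β • D₂ with hE
    have hEu : E u = u := by
      simp only [hE, Derivation.add_apply, Derivation.smul_apply, smul_eq_mul, hD2u, mul_zero,
        add_zero, hαu]
    have hEv : E v = v := by
      simp only [hE, Derivation.add_apply, Derivation.smul_apply, smul_eq_mul, hD1v, mul_zero,
        zero_add, hβv]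
    have h1 : E (u / v) = 0 := by
      have h2 : u = (u / v) * v := by field_simp
      have h3 : E u = (u / v) * E v + v * E (u / v) := by
        conv_lhs => rw [h2]
        rw [Derivation.leibniz]
        simp only [smul_eq_mul]
      rw [hEu, hEv] at h3
      have h4 : v * E (u / v) = 0 := by
        have h5 : u / v * v = u := by field_simp
        linear_combination -h3 - h5
      rcases mul_eq_zero.mp h4 with h6 | h6
      · exact absurd h6 hv0
      · exact h6
    have h2 : E (z / v) = 0 := D_eq_zero_of_mem_FX h1 hz2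
    have h3 : z = (z / v) * v := by field_simp
    have h4 : E z = (z / v) * E v + v * E (z / v) := by
      conv_lhs => rw [h3]
      rw [Derivation.leibniz]
      simp only [smul_eq_mul]
    rw [h2, mul_zero, add_zero, hEv, ← h3] at h4
    simpa only [hE, Derivation.add_apply, Derivation.smul_apply, smul_eq_mul] using h4
  -- commutator
  have hcomm : D₁ (D₂ z) = D₂ (D₁ z) := by
    have hbx : ⁅D₁, D₂⁆ x = 0 := by
      rw [Derivation.commutator_apply, h2x, h1x, h2x, map_zero, sub_zero]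
    have hby : ⁅D₁, D₂⁆ y = 0 := by
      rw [Derivation.commutator_apply, h2y, h1y, map_zero, sub_zero]
    have hxk : x ∈ kerD ⁅D₁, D₂⁆ := hbx
    have hyk : y ∈ kerD ⁅D₁, D₂⁆ := hby
    have h1 : z / y ∈ kerD ⁅D₁, D₂⁆ :=
      FX_le_of (M := kerD ⁅D₁, D₂⁆) (fun a => D_pow_p _ a) (div_mem hxk hyk) hz1
    have h2 : z ∈ kerD ⁅D₁, D₂⁆ := by
      have : z = (z / y) * y := by field_simp
      rw [this]
      exact mul_mem h1 hyk
    have h3 : ⁅D₁, D₂⁆ z = 0 := h2
    rw [Derivation.commutator_apply] at h3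
    exact sub_eq_zero.mp h3
  have hD2α : D₂ α = 0 := D_eq_zero_of_mem_FX h2x hαmem
  have hD1β : D₁ β = 0 := D_eq_zero_of_mem_FX h1y hβmem
  have hA : D₁ (D₁ z) + D₁ (D₂ z) = D₁ z := by
    rw [← map_add, hE1]
  have hB : D₂ (D₁ z) + D₂ (D₂ z) = D₂ z := by
    rw [← map_add, hE1]
  have h1E : D₁ (α * D₁ z + β * D₂ z) = D₁ z := by rw [hE2]
  have h2E : D₂ (α * D₁ z + β * D₂ z) = D₂ z := by rw [hE2]
  rw [map_add, Derivation.leibniz, Derivation.leibniz, hD1β] at h1E
  rw [map_add, Derivation.leibniz, Derivation.leibniz, hD2α] at h2E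
  simp only [smul_eq_mul, mul_zero, add_zero] at h1E h2E
  have hkey : D₁ α * D₁ z + D₂ β * D₂ z = 0 := by
    linear_combination h1E + h2E + hE1 - hE2 - α * hA - β * hB + (β - α) * (-hcomm)
  have hkey2 : D₁ α * (β - 1) = D₂ β * (α - 1) := by
    have h1 : D₁ z * (α - β) = z * (1 - β) := by
      linear_combination hE2 - β * hE1
    have h2 : D₂ z * (α - β) = z * (α - 1) := by
      linear_combination α * hE1 - hE2
    have h3 : z * (D₁ α * (β - 1) - D₂ β * (α - 1)) = 0 := by
      linear_combination (-(α - β)) * hkey + D₁ α * h1 + D₂ β * h2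
    rcases mul_eq_zero.mp h3 with h4 | h4
    · exact absurd h4 hz
    · exact sub_eq_zero.mp h4
  -- the common eigenvalue
  set c := D₁ α / (α - 1) with hc
  have hc' : c = D₂ β / (β - 1) := by
    rw [hc, div_eq_div_iff hα1 hβ1, hkey2]
  have hcx : c ∈ FX p x := div_mem (D_mem_FX h1x hαmem) (sub_mem hαmem (one_mem _))
  have hcy : c ∈ FX p y := by
    rw [hc']
    exact div_mem (D_mem_FX h2y hβmem) (sub_mem hβmem (one_mem _))
  have hcp : Pth p c := pth_of_D_eq_zero hx h1x hcx (D_eq_zero_of_mem_FX h1y hcy)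
  have hα' : D₁ (α - 1) = c * (α - 1) := by
    rw [map_sub, D₁.map_one_eq_zero, sub_zero, hc]
    field_simp
  have hβ' : D₂ (β - 1) = c * (β - 1) := by
    rw [map_sub, D₂.map_one_eq_zero, sub_zero, hc']
    field_simp
  obtain ⟨i, hi, hci, r, hr⟩ := eigen hx h1x (sub_mem hαmem (one_mem _)) hα1 hcp hα'
  obtain ⟨j, hj, hcj, s, hs⟩ := eigen hyp h2y (sub_mem hβmem (one_mem _)) hβ1 hcp hβ'
  have hij : i = j := CharP.natCast_injOn_Iio K p hi hj (by rw [← hci, ← hcj])
  subst hij
  have hr0 : r ≠ 0 := by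
    rintro rfl
    rw [zero_pow (Fact.out : p.Prime).ne_zero, zero_mul] at hr
    exact hα1 hr
  have hs0 : s ≠ 0 := by
    rintro rfl
    rw [zero_pow (Fact.out : p.Prime).ne_zero, zero_mul] at hs
    exact hβ1 hs
  have hi0 : 0 < i := by
    rcases Nat.eq_zero_or_pos i with rfl | h
    · exfalso
      rw [pow_zero, mul_one] at hr
      have h1 : Pth p α := by
        have : α = 1 + r ^ p := by rw [← hr]; ring
        rw [this]
        exact pth_one.add (pth_pow r)
      refine hune α⁻¹ h1.inv ?_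
      rw [eq_comm, inv_mul_eq_iff_eq_mul₀ hα0]
      exact hαu.symm
    · exact h
  have hr' : u / D₁ u = 1 + r ^ p * x ^ i := by
    rw [← hα, ← hr]; ring
  have hs' : v / D₂ v = 1 + s ^ p * y ^ i := by
    rw [← hβ, ← hs]; ring
  refine ⟨p - i, by omega, by omega, ?_, ?_⟩
  · exact config_one hx h1x hu hu' hi hi0 hr' hr0 hDu
  · exact config_one hyp h2y hv hv' hi hi0 hs' hs0 hDv

end Crest.Agent.R009
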