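import Mathlib
import Crest.Prelude.Def_MilnorK

/-!
Shared definitions for result 9 (S0010).  `Pth p x` : `x` is a `p`-th power, i.e. `x ∈ K^p`.
`FX p x` : the subfield `K^p(x)`.  `PEq p x y` : `x` and `y` agree modulo non-zero `p`-th powers.
-/

set_option autoImplicit false

namespace Crest.Agent.R009

variable {K : Type*} [Field K]

/-- `x` is a `p`-th power. -/
def Pth (p : ℕ) (x : K) : Prop := ∃ a : K, x = a ^ p

/-- The subfield generated by the `p`-th powers and `x`. -/
def FX (p : ℕ) (x : K) : Subfield K := Subfield.closure (Set.range (fun a : K => a ^ p) ∪ {x})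

/-- equality up to a nonzero `p`-th power. -/
def PEq (p : ℕ) (x y : K) : Prop := ∃ a : K, a ≠ 0 ∧ x = a ^ p * y

end Crest.Agent.R009
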