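import Crest.Agent.R009.Basic

/-!
The two facts on finitely generated extensions of algebraically closed fields.
-/

set_option autoImplicit false

namespace Crest.Agent.R009

open scoped KaehlerDifferential

variable {p : ℕ} [Fact p.Prime] {K : Type*} [Field K] [CharP K p]

/-- the elements killed by the universal derivation over an intermediate field -/
def kerUniv {k : Type*} [Field k] [Algebra k K] (M : IntermediateField k K) : Subfield K where
  carrier := {x | KaehlerDifferential.D M K x = 0}
  mul_mem' := by
    intro a b ha hb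
    have ha' : KaehlerDifferential.D M K a = 0 := ha
    have hb' : KaehlerDifferential.D M K b = 0 := hb
    change KaehlerDifferential.D M K (a * b) = 0
    rw [Derivation.leibniz, ha', hb', smul_zero, smul_zero, add_zero]
  one_mem' := Derivation.map_one_eq_zero _
  add_mem' := by
    intro a b ha hb
    have ha' : KaehlerDifferential.D M K a = 0 := ha
    have hb' : KaehlerDifferential.D M K b = 0 := hb
    change KaehlerDifferential.D M K (a + b) = 0
    rw [map_add, ha', hb', add_zero]
  zero_mem' := Derivation.map_zero _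
  neg_mem' := by
    intro a ha
    have ha' : KaehlerDifferential.D M K a = 0 := ha
    change KaehlerDifferential.D M K (-a) = 0
    rw [map_neg, ha', neg_zero]
  inv_mem' := by
    intro a ha
    have ha' : KaehlerDifferential.D M K a = 0 := ha
    change KaehlerDifferential.D M K (a⁻¹) = 0
    rw [Derivation.leibniz_inv, ha', smul_zero]

/-- If the only subfield containing the `p`-th powers and `M` is `⊤`, then `K / M` is algebraic
(here `K / k` is finitely generated). -/
theorem isAlgebraic_of_forall {k : Type*} [Field k] [Algebra k K] [Algebra.EssFiniteType k K]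
    (M : IntermediateField k K)
    (h : ∀ N : Subfield K, (∀ a : K, a ^ p ∈ N) → (∀ a ∈ M, a ∈ N) → ∀ a : K, a ∈ N) :
    Algebra.IsAlgebraic M K := by
  have hE : Algebra.EssFiniteType M K := Algebra.EssFiniteType.of_comp k M K
  have h0 : ∀ a : K, KaehlerDifferential.D M K a = 0 := by
    intro a
    refine h (kerUniv M) ?_ ?_ a
    · intro a
      change KaehlerDifferential.D M K (a ^ p) = 0
      rw [Derivation.leibniz_pow, ← Nat.cast_smul_eq_nsmul K, CharP.cast_eq_zero, zero_smul]
    · intro a ha
      exact (KaehlerDifferential.D M K).map_algebraMap (⟨a, ha⟩ : M)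
  have h1 : Subsingleton (Ω[K⁄M]) := by
    rw [← Submodule.subsingleton_iff K, ← subsingleton_iff_bot_eq_top,
      ← KaehlerDifferential.span_range_derivation, eq_comm, Submodule.span_eq_bot]
    rintro _ ⟨a, rfl⟩
    exact h0 a
  have h2 : Algebra.FormallyUnramified M K := ⟨h1⟩
  have h3 : Algebra.IsSeparable M K := (Algebra.FormallyUnramified.iff_isSeparable M K).1 h2
  infer_instance

theorem essFiniteType_of_closure (k : Subfield K)
    (hK : ∃ s : Finset K, Subfield.closure ((k : Set K) ∪ (s : Set K)) = ⊤) :
    Algebra.EssFiniteType k K := by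
  obtain ⟨s, hs⟩ := hK
  rw [← IntermediateField.fg_top_iff]
  refine ⟨s, ?_⟩
  rw [eq_top_iff]
  intro x _
  have hx : x ∈ Subfield.closure ((k : Set K) ∪ (s : Set K)) := by rw [hs]; trivial
  have hle : Subfield.closure ((k : Set K) ∪ (s : Set K)) ≤
      (IntermediateField.adjoin k (s : Set K)).toSubfield := by
    rw [Subfield.closure_le]
    rintro y (hy | hy)
    · exact (IntermediateField.adjoin k (s : Set K)).algebraMap_mem ⟨y, hy⟩
    · exact IntermediateField.subset_adjoin k (s : Set K) hy
  exact hle hx

/-- TASK T1.  Transcendence degree at least 2 implies `K ≠ K^p(x)`. -/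
theorem geo1 (k : Subfield K) [IsAlgClosed k]
    (hK : ∃ s : Finset K, Subfield.closure ((k : Set K) ∪ (s : Set K)) = ⊤)
    (hK2 : 2 ≤ Algebra.trdeg k K) (x : K) : ∃ y, y ∉ FX p x := by
  by_contra hcon
  push Not at hcon
  have hE := essFiniteType_of_closure k hK
  have h1 : Algebra.IsAlgebraic (IntermediateField.adjoin k ({x} : Set K)) K := by
    refine isAlgebraic_of_forall (p := p) _ ?_
    intro N hN hM a
    exact FX_le_of hN (hM x (IntermediateField.mem_adjoin_simple_self k x)) (hcon a)
  have h2 : Algebra.IsAlgebraic (Algebra.adjoin k ({x} : Set K)) K := by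
    rwa [← IntermediateField.isAlgebraic_adjoin_iff_top] at *
  have h3 := Algebra.IsAlgebraic.trdeg_le_cardinalMk k ({x} : Set K)
  have h4 := hK2.trans h3
  rw [Cardinal.mk_singleton] at h4
  exact absurd h4 (by norm_num)

/-- the elements with `p ^ n`-th roots for all `n` -/
def perfCore (p : ℕ) [Fact p.Prime] {K : Type*} [Field K] [CharP K p] (k : Subfield K)
    [IsAlgClosed k] : IntermediateField k K where
  carrier := {a | ∀ n : ℕ, ∃ b : K, b ^ (p ^ n) = a}
  mul_mem' := by
    intro a b ha hb n
    obtain ⟨c, hc⟩ := ha n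
    obtain ⟨d, hd⟩ := hb n
    exact ⟨c * d, by rw [mul_pow, hc, hd]⟩
  add_mem' := by
    intro a b ha hb n
    obtain ⟨c, hc⟩ := ha n
    obtain ⟨d, hd⟩ := hb n
    exact ⟨c + d, by rw [add_pow_char_pow, hc, hd]⟩
  algebraMap_mem' := by
    intro a n
    obtain ⟨b, hb⟩ := IsAlgClosed.exists_pow_nat_eq a (pow_pos (Fact.out : p.Prime).pos n)
    exact ⟨algebraMap k K b, by rw [← map_pow, hb]⟩
  inv_mem' := by
    intro a ha n
    obtain ⟨c, hc⟩ := ha n
    exact ⟨c⁻¹, by rw [inv_pow, hc]⟩

theorem mem_perfCore (k : Subfield K) [IsAlgClosed k] {a : K} :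
    a ∈ perfCore p k ↔ ∀ n : ℕ, ∃ b : K, b ^ (p ^ n) = a := Iff.rfl

theorem exists_root_perfCore (k : Subfield K) [IsAlgClosed k] {a : K} (ha : a ∈ perfCore p k) :
    ∃ b ∈ perfCore p k, b ^ p = a := by
  obtain ⟨b, hb⟩ := ha 1
  rw [pow_one] at hb
  refine ⟨b, ?_, hb⟩
  intro n
  obtain ⟨c, hc⟩ := ha (n + 1)
  refine ⟨c, ?_⟩
  apply frobenius_inj K p
  rw [frobenius_def, frobenius_def, hb, ← hc, ← pow_mul, pow_succ]

/-- TASK T2.  An element with `p^n`-th roots for all `n` is constant. -/
theorem geo2 (k : Subfield K) [IsAlgClosed k]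
    (hK : ∃ s : Finset K, Subfield.closure ((k : Set K) ∪ (s : Set K)) = ⊤)
    (a : K) (ha : ∀ n : ℕ, ∃ b : K, b ^ (p ^ n) = a) : a ∈ k := by
  classical
  have hEF := essFiniteType_of_closure k hK
  let E : IntermediateField k K := perfCore p k
  have hEchar : CharP E p := inferInstance
  have hPR : PerfectRing E p := by
    apply PerfectRing.ofSurjective
    rintro ⟨b, hb⟩
    obtain ⟨c, hc, hcb⟩ := exists_root_perfCore k hb
    exact ⟨⟨c, hc⟩, Subtype.ext hcb⟩
  have hPF : PerfectField E := PerfectRing.toPerfectField E p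
  have hEF2 : Algebra.EssFiniteType E K := Algebra.EssFiniteType.of_comp k E K
  obtain ⟨s, hs, hsep⟩ := exists_isTranscendenceBasis_and_isSeparable_of_perfectField E K
  have halg : Algebra.IsAlgebraic (IntermediateField.adjoin k (s : Set K)) K := by
    refine isAlgebraic_of_forall (p := p) _ ?_
    intro N hN hM a
    let L0 : IntermediateField E K := IntermediateField.adjoin E (s : Set K)
    have hL0N : L0.toSubfield ≤ N := by
      change (IntermediateField.adjoin E (s : Set K)).toSubfield ≤ N
      rw [IntermediateField.adjoin_toSubfield, Subfield.closure_le]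
      rintro x (⟨⟨y, hy⟩, rfl⟩ | hx)
      · obtain ⟨c, hc, hcb⟩ := exists_root_perfCore k hy
        change y ∈ N
        rw [← hcb]
        exact hN c
      · exact hM x (IntermediateField.subset_adjoin k (s : Set K) hx)
    let N' : IntermediateField L0 K := { N with
      algebraMap_mem' := fun x => hL0N x.2 }
    have h1 : Algebra.IsSeparable N' K := Algebra.isSeparable_tower_top_of_isSeparable L0 N' K
    have h2 : IsPurelyInseparable N' K := by
      rw [isPurelyInseparable_iff_pow_mem N' p]
      intro x
      exact ⟨1, ⟨⟨x ^ p, hN x⟩, by rw [pow_one]; rfl⟩⟩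
    obtain ⟨⟨b, hb⟩, hba⟩ := IsPurelyInseparable.surjective_algebraMap_of_isSeparable N' K a
    rw [← hba]
    exact hb
  have halg2 : Algebra.IsAlgebraic (Algebra.adjoin k (s : Set K)) K := by
    rwa [← IntermediateField.isAlgebraic_adjoin_iff_top] at *
  have h3 := Algebra.IsAlgebraic.trdeg_le_cardinalMk k (s : Set K)
  have hf1 : FaithfulSMul k E :=
    (faithfulSMul_iff_algebraMap_injective k E).2 (algebraMap k E).injective
  have hf2 : FaithfulSMul E K :=
    (faithfulSMul_iff_algebraMap_injective E K).2 (algebraMap E K).injective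
  have h4 : Algebra.trdeg k E + Algebra.trdeg E K = Algebra.trdeg k K := trdeg_add_eq k E
  have h5 := hs.cardinalMk_eq_trdeg
  have h6 : Algebra.trdeg k E = 0 := by
    rw [← h4, ← h5] at h3
    have hfin : Cardinal.mk (s : Set K) < Cardinal.aleph0 := Cardinal.lt_aleph0_of_finite _
    by_contra hne
    have h7 : 1 ≤ Algebra.trdeg k E := Cardinal.one_le_iff_ne_zero.2 hne
    have h8 : 1 + Cardinal.mk (s : Set K) ≤ Cardinal.mk (s : Set K) := (add_le_add_left h7 _).trans h3
    lift Cardinal.mk (s : Set K) to ℕ using hfin with n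
    norm_cast at h8
    omega
  have h9 : Algebra.IsAlgebraic k E := trdeg_eq_zero_iff.1 h6
  have h10 := IsAlgClosed.algebraMap_bijective_of_isIntegral (k := k) (K := E)
  obtain ⟨b, hb⟩ := h10.2 ⟨a, ha⟩
  have h11 := congrArg (fun x : E => (x : K)) hb
  rw [← show ((algebraMap k E b : E) : K) = a from h11]
  exact b.2

end Crest.Agent.R009
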