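import Crest.Agent.R009.Defs

/-!
T2: an element of a finitely generated field extension `K` of an algebraically closed field `k` which has
`p^n`-th roots for all `n` lies in `k`.  (Norm and degree argument.)
-/

set_option autoImplicit false

namespace Crest.Agent.R009

open MvPolynomial

theorem totalDegree_pow_domain {R σ : Type*} [CommRing R] [IsDomain R] {f : MvPolynomial σ R}
    (hf : f ≠ 0) (n : ℕ) : (f ^ n).totalDegree = n * f.totalDegree := by
  induction n with
  | zero => simp
  | succ n ih =>
    rw [pow_succ, totalDegree_mul_of_isDomain (pow_ne_zero n hf) hf, ih]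
    ring

/-- in a purely transcendental extension, `x i ^ d` is a `q`-th power only if `q ∣ d` -/
theorem dvd_of_pow_eq_pow {k K ι : Type*} [Field k] [Field K] [Algebra k K] {x : ι → K}
    (hx : AlgebraicIndependent k x) (i : ι) (d q : ℕ) (hq : 0 < q)
    (z : IntermediateField.adjoin k (Set.range x)) (hz : (z : K) ^ q = x i ^ d) : q ∣ d := by
  set w := hx.aevalEquivField.symm z with hw
  have hzw : hx.aevalEquivField w = z := by rw [hw, AlgEquiv.apply_symm_apply]
  have h1 : w ^ q = algebraMap (MvPolynomial ι k) (FractionRing (MvPolynomial ι k)) (X i ^ d) := by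
    apply hx.aevalEquivField.injective
    apply Subtype.ext
    rw [map_pow, hzw, AlgebraicIndependent.aevalEquivField_algebraMap_apply_coe, map_pow,
      MvPolynomial.aeval_X]
    exact hz
  obtain ⟨g, hg⟩ := IsIntegrallyClosed.exists_algebraMap_eq_of_isIntegral_pow
    (R := MvPolynomial ι k) (K := FractionRing (MvPolynomial ι k)) (x := w) hq (by
      rw [h1]; exact isIntegral_algebraMap)
  have h2 : g ^ q = X i ^ d := by
    apply IsFractionRing.injective (MvPolynomial ι k) (FractionRing (MvPolynomial ι k))
    rw [map_pow, hg, h1]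
  have hg0 : g ≠ 0 := by
    rintro rfl
    rw [zero_pow hq.ne'] at h2
    exact pow_ne_zero d (MvPolynomial.X_ne_zero i) h2.symm
  have h3 := congrArg MvPolynomial.totalDegree h2
  rw [totalDegree_pow_domain hg0, totalDegree_pow_domain (MvPolynomial.X_ne_zero i),
    MvPolynomial.totalDegree_X, mul_one] at h3
  exact ⟨_, h3.symm⟩

/-- T2 -/
theorem geo2' {p : ℕ} [Fact p.Prime] {K : Type*} [Field K] (k : Subfield K) [IsAlgClosed k]
    (hK : ∃ s : Finset K, Subfield.closure ((k : Set K) ∪ (s : Set K)) = ⊤)
    (a : K) (ha : ∀ n : ℕ, ∃ b : K, b ^ (p ^ n) = a) : a ∈ k := by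
  have hp : p.Prime := Fact.out
  by_contra hak
  have htr : Transcendental k a := by
    intro halg
    have h1 : IsIntegral k a := halg.isIntegral
    have : Algebra.IsAlgebraic k (IntermediateField.adjoin k {a}) :=
      IntermediateField.isAlgebraic_adjoin_simple h1
    have h2 := IntermediateField.eq_bot_of_isAlgClosed_of_isAlgebraic
      (IntermediateField.adjoin k {a})
    have h3 : a ∈ IntermediateField.adjoin k {a} := IntermediateField.mem_adjoin_simple_self k a
    rw [h2, IntermediateField.mem_bot] at h3
    obtain ⟨y, hy⟩ := h3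
    exact hak (hy ▸ y.2)
  have hind : AlgebraicIndepOn k id {a} := by
    have := (algebraicIndependent_unique_type_iff (R := k) (A := K) (ι := ({a} : Set K))
      (x := fun i : ({a} : Set K) => id (i : K))).2
    apply this
    have hd : (default : ({a} : Set K)) = ⟨a, rfl⟩ := rfl
    rw [hd]
    exact htr
  obtain ⟨B, haB, hB⟩ := exists_isTranscendenceBasis_superset hind
  have haB' : a ∈ B := haB rfl
  have halg := hB.isAlgebraic_field
  set F₀ := IntermediateField.adjoin k (Set.range ((↑) : B → K)) with hF₀
  obtain ⟨s, hs⟩ := hK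
  have htop : IntermediateField.adjoin F₀ (s : Set K) = ⊤ := by
    rw [eq_top_iff]
    intro y _
    have hy : y ∈ Subfield.closure ((k : Set K) ∪ (s : Set K)) := by rw [hs]; trivial
    have hle : Subfield.closure ((k : Set K) ∪ (s : Set K)) ≤
        (IntermediateField.adjoin F₀ (s : Set K)).toSubfield := by
      rw [Subfield.closure_le]
      rintro t (ht | ht)
      · have h1 : t ∈ F₀ := F₀.algebraMap_mem (⟨t, ht⟩ : k)
        exact (IntermediateField.adjoin F₀ (s : Set K)).algebraMap_mem (⟨t, h1⟩ : F₀)
      · exact IntermediateField.subset_adjoin F₀ (s : Set K) ht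
    exact hle hy
  have hfin : FiniteDimensional F₀ K := by
    have h1 : FiniteDimensional F₀ (IntermediateField.adjoin F₀ (s : Set K)) :=
      IntermediateField.finiteDimensional_adjoin fun x _ => (halg.isAlgebraic x).isIntegral
    rw [htop] at h1
    exact (IntermediateField.topEquiv (F := F₀) (E := K)).toLinearEquiv.finiteDimensional
  set d := Module.finrank F₀ K with hd
  have hdpos : 0 < d := Module.finrank_pos
  obtain ⟨b, hb⟩ := ha d
  have haF : a ∈ F₀ := IntermediateField.subset_adjoin k _ ⟨⟨a, haB'⟩, rfl⟩
  have hnorm : (Algebra.norm F₀ b) ^ (p ^ d) = (⟨a, haF⟩ : F₀) ^ d := by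
    rw [← map_pow, hb]
    exact Algebra.norm_algebraMap (S := K) (⟨a, haF⟩ : F₀)
  have hdvd : p ^ d ∣ d := by
    refine dvd_of_pow_eq_pow hB.1 ⟨a, haB'⟩ d (p ^ d) (pow_pos hp.pos _) (Algebra.norm F₀ b) ?_
    have := congrArg (fun t : F₀ => (t : K)) hnorm
    simpa using this
  exact absurd (Nat.le_of_dvd hdpos hdvd) (not_le.2 (Nat.lt_pow_self hp.one_lt))

end Crest.Agent.R009
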