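import Crest.Agent.R009.TheoremA
import Crest.Agent.R009.Geo
import Crest.Agent.R009.Geo2

/-!
TASK T5: the final statement from `theoremA` (applied to `Θ` and `Θ.symm`), `rigid`, `geo1`, `geo2'`.
-/

set_option autoImplicit false
set_option linter.unusedSectionVars false

open Crest.NumberTheoryR.MilnorK

namespace Crest.Agent.R009

section
variable {p : ℕ} [Fact p.Prime] {K L : Type*} [Field K] [CharP K p] [Field L] [CharP L p]

/-- rigidity in terms of classes -/
theorem rigid_cls (hx : ∃ x : K, ¬ Pth p x) (γ : K →+* K) (z : ZMod p) (hz : z ≠ 0)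
    (h : ∀ u : Kˣ, cls K p (Units.map γ.toMonoidHom u) = z • cls K p u) : γ = RingHom.id K := by
  have hval : ((z.val : ℕ) : ZMod p) = z := ZMod.natCast_zmod_val z
  refine rigid hx γ z.val ?_ ?_
  · intro hdvd
    apply hz
    rw [← hval]
    exact (ZMod.natCast_eq_zero_iff _ _).2 hdvd
  · intro x hx0
    have h1 := h (Units.mk0 x hx0)
    rw [← hval, ← cls_pow, cls_eq_iff] at h1
    simpa using h1

theorem exists_not_pth (hd : ∀ x : K, ∃ y, y ∉ FX p x) : ∃ x : K, ¬ Pth p x := by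
  obtain ⟨y, hy⟩ := hd 0
  exact ⟨y, fun h => hy h.mem_FX⟩

/-- ring homs between such fields carry the constants into the constants -/
theorem map_mem (p : ℕ) [Fact p.Prime] (k : Subfield K) (l : Subfield L) [IsAlgClosed k] [IsAlgClosed l]
    (hL : ∃ s : Finset L, Subfield.closure ((l : Set L) ∪ (s : Set L)) = ⊤)
    (α : K →+* L) {x : K} (hx : x ∈ k) : α x ∈ l := by
  have hp : p.Prime := Fact.out
  refine geo2' (p := p) l hL (α x) fun n => ?_
  obtain ⟨z, hz⟩ := IsAlgClosed.exists_pow_nat_eq (⟨x, hx⟩ : k) (pow_pos hp.pos n)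
  refine ⟨α z, ?_⟩
  have : (z : K) ^ p ^ n = x := by
    have := congrArg (fun t : k => (t : K)) hz
    simpa using this
  rw [← map_pow, this]

end

theorem final {p : ℕ} [Fact p.Prime]
    {K L : Type*} [Field K] [Field L] [CharP K p] [CharP L p] (k : Subfield K) (l : Subfield L)
    [IsAlgClosed k] [IsAlgClosed l]
    (hK : ∃ s : Finset K, Subfield.closure ((k : Set K) ∪ (s : Set K)) = ⊤)
    (hL : ∃ s : Finset L, Subfield.closure ((l : Set L) ∪ (s : Set L)) = ⊤)
    (hK2 : 2 ≤ Algebra.trdeg k K) (hL2 : 2 ≤ Algebra.trdeg l L)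
    (Θ : KOne K p ≃ₗ[ZMod p] KOne L p) (hΘ : IsCompatible Θ) :
    ∃! α : K ≃+* L, k.map α.toRingHom = l ∧
      ∃ c : ZMod p, c ≠ 0 ∧ ∀ u : Kˣ, Θ (cls K p u) = c • cls L p (Units.map α.toRingHom.toMonoidHom u) := by
  have hp : p.Prime := Fact.out
  have hdK : ∀ x : K, ∃ y, y ∉ FX p x := geo1 k hK hK2
  have hdL : ∀ x : L, ∃ y, y ∉ FX p x := geo1 l hL hL2
  obtain ⟨c, hc0, hcp, α, hα⟩ := theoremA hdK Θ hΘ
  obtain ⟨c', hc'0, hc'p, β, hβ⟩ := theoremA hdL Θ.symm (isCompatible_symm Θ hΘ)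
  have hne : ∀ {n : ℕ}, 0 < n → n < p → ((n : ℕ) : ZMod p) ≠ 0 := by
    intro n h0 hn h
    rw [ZMod.natCast_eq_zero_iff] at h
    exact absurd (Nat.le_of_dvd h0 h) (not_le.2 hn)
  have hc : ((c : ℕ) : ZMod p) ≠ 0 := hne hc0 hcp
  have hc' : ((c' : ℕ) : ZMod p) ≠ 0 := hne hc'0 hc'p
  have hΘα : ∀ u : Kˣ, Θ (cls K p u) = ((c : ZMod p))⁻¹ • cls L p (Units.map α.toMonoidHom u) := by
    intro u
    rw [← hα u, smul_smul, inv_mul_cancel₀ hc, one_smul]
  -- comparison of `β` with any ring hom satisfying the relation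
  have comp : ∀ (α' : K →+* L) (z : ZMod p), z ≠ 0 →
      (∀ u : Kˣ, Θ (cls K p u) = z • cls L p (Units.map α'.toMonoidHom u)) →
      β.comp α' = RingHom.id K := by
    intro α' z hz h
    refine rigid_cls (exists_not_pth hdK) (β.comp α') ((c' : ZMod p) * z⁻¹)
      (mul_ne_zero hc' (inv_ne_zero hz)) fun u => ?_
    have h1 : cls K p (Units.map (β.comp α').toMonoidHom u)
        = (c' : ZMod p) • Θ.symm (cls L p (Units.map α'.toMonoidHom u)) := by
      rw [hβ]
      rfl
    have h2 : cls L p (Units.map α'.toMonoidHom u) = z⁻¹ • Θ (cls K p u) := by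
      rw [h u, smul_smul, inv_mul_cancel₀ hz, one_smul]
    rw [h1, h2, map_smul, LinearEquiv.symm_apply_apply, smul_smul]
  have hβα : β.comp α = RingHom.id K := comp α _ (inv_ne_zero hc) hΘα
  have hαβ : α.comp β = RingHom.id L := by
    refine rigid_cls (exists_not_pth hdL) (α.comp β) ((c : ZMod p) * (c' : ZMod p))
      (mul_ne_zero hc hc') fun v => ?_
    have h1 : cls L p (Units.map (α.comp β).toMonoidHom v)
        = (c : ZMod p) • Θ (cls K p (Units.map β.toMonoidHom v)) := by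
      rw [hα]
      rfl
    rw [h1, ← hβ v, map_smul, LinearEquiv.apply_symm_apply, smul_smul]
  have hβα' : ∀ x, β (α x) = x := fun x => congrArg (fun f : K →+* K => f x) hβα
  have hαβ' : ∀ y, α (β y) = y := fun y => congrArg (fun f : L →+* L => f y) hαβ
  let e : K ≃+* L := RingEquiv.ofRingHom α β hαβ hβα
  have hexp : ∀ x, e x = α x := fun _ => rfl
  have hetoRingHom : e.toRingHom = α := RingHom.ext hexp
  refine ⟨e, ⟨?_, ((c : ZMod p))⁻¹, inv_ne_zero hc, ?_⟩, ?_⟩
  · ext y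
    rw [Subfield.mem_map]
    constructor
    · rintro ⟨x, hx, rfl⟩
      exact map_mem p k l hL α hx
    · intro hy
      exact ⟨β y, map_mem p l k hK β hy, hαβ' y⟩
  · intro u
    rw [hetoRingHom]
    exact hΘα u
  · rintro α' ⟨-, z, hz, h⟩
    have h1 := comp α'.toRingHom z hz h
    have h1' : ∀ x, β (α' x) = x := fun x => congrArg (fun f : K →+* K => f x) h1
    ext x
    apply β.injective
    rw [h1' x]
    exact (hβα' x).symm

end Crest.Agent.R009
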