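import Crest.Agent.R009.Steinberg

/-!
The abstract properties (`Good`) of the map `θ : K → L` of representatives, and their consequences.
-/

set_option autoImplicit false
set_option linter.unusedSectionVars false

open Crest.NumberTheoryR.MilnorK

namespace Crest.Agent.R009

section
variable {p : ℕ} [Fact p.Prime] {K : Type*} [Field K] [CharP K p]

theorem PEq.refl (x : K) : PEq p x x := ⟨1, one_ne_zero, by simp⟩

theorem PEq.symm {x y : K} (h : PEq p x y) : PEq p y x := by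
  obtain ⟨a, ha, rfl⟩ := h
  refine ⟨a⁻¹, inv_ne_zero ha, ?_⟩
  rw [← mul_assoc, ← mul_pow, inv_mul_cancel₀ ha, one_pow, one_mul]

theorem PEq.trans {x y z : K} (h : PEq p x y) (h' : PEq p y z) : PEq p x z := by
  obtain ⟨a, ha, rfl⟩ := h
  obtain ⟨b, hb, rfl⟩ := h'
  exact ⟨a * b, mul_ne_zero ha hb, by rw [mul_pow]; ring⟩

theorem PEq.mul {x y x' y' : K} (h : PEq p x y) (h' : PEq p x' y') : PEq p (x * x') (y * y') := by
  obtain ⟨a, ha, rfl⟩ := h
  obtain ⟨b, hb, rfl⟩ := h'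
  exact ⟨a * b, mul_ne_zero ha hb, by rw [mul_pow]; ring⟩

theorem PEq.pow {x y : K} (h : PEq p x y) (n : ℕ) : PEq p (x ^ n) (y ^ n) := by
  obtain ⟨a, ha, rfl⟩ := h
  exact ⟨a ^ n, pow_ne_zero n ha, by rw [mul_pow, ← pow_mul, ← pow_mul, mul_comm n p]⟩

theorem PEq.inv {x y : K} (h : PEq p x y) : PEq p x⁻¹ y⁻¹ := by
  obtain ⟨a, ha, rfl⟩ := h
  exact ⟨a⁻¹, inv_ne_zero ha, by rw [mul_inv, inv_pow]⟩

theorem PEq.pth {x y : K} (h : PEq p x y) (hx : Pth p x) : Pth p y := by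
  obtain ⟨a, ha, rfl⟩ := h.symm
  exact (pth_pow a).mul hx

theorem PEq.mem {x y z : K} (h : PEq p x y) (hx : x ∈ FX p z) : y ∈ FX p z := by
  obtain ⟨a, ha, rfl⟩ := h.symm
  exact mul_mem (pth_pow a).mem_FX hx

theorem PEq.FX_le {x y : K} (h : PEq p x y) : FX p y ≤ FX p x :=
  Crest.Agent.R009.FX_le (h.mem (self_mem_FX x))

theorem PEq.FX_eq {x y : K} (h : PEq p x y) : FX p x = FX p y :=
  le_antisymm h.symm.FX_le h.FX_le

theorem PEq.of_pth {x : K} (hx : Pth p x) (hx0 : x ≠ 0) : PEq p x 1 := by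
  obtain ⟨a, rfl⟩ := hx
  refine ⟨a, ?_, by rw [mul_one]⟩
  rintro rfl
  exact hx0 (zero_pow (Fact.out : p.Prime).ne_zero)

theorem exists_D {x : K} (hx : ¬ Pth p x) : ∃ D : Derivation ℤ K K, D x = x := by
  obtain ⟨D, -, hD⟩ := exists_derivation (M := PF p K) (fun a => pth_pow a) hx
  refine ⟨(x / D x) • D, ?_⟩
  simp only [Derivation.smul_apply, smul_eq_mul]
  field_simp

theorem natCast_ne_zero {c : ℕ} (h0 : 0 < c) (hc : c < p) : (c : K) ≠ 0 := by
  intro h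
  have h1 := (CharP.cast_eq_zero_iff K p c).mp h
  exact absurd (Nat.le_of_dvd h0 h1) (not_le.mpr hc)

theorem not_pth_pow {x : K} (hx : ¬ Pth p x) {c : ℕ} (h0 : 0 < c) (hc : c < p) :
    ¬ Pth p (x ^ c) := by
  intro h
  obtain ⟨D, hD⟩ := exists_D hx
  have h1 := D_pth D h
  rw [D_pow_of_eq hD] at h1
  rcases mul_eq_zero.mp h1 with h2 | h2
  · exact natCast_ne_zero h0 hc h2
  · have h3 : x = 0 := pow_eq_zero_iff (by omega) |>.mp h2
    exact hx (h3 ▸ pth_zero)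

theorem FX_pow {x : K} {c : ℕ} (h0 : 0 < c) (hc : c < p) : FX p (x ^ c) = FX p x := by
  by_cases hx : Pth p x
  · ext y
    have hxc : Pth p (x ^ c) := by
      obtain ⟨a, rfl⟩ := hx
      exact ⟨a ^ c, by rw [← pow_mul, ← pow_mul, mul_comm]⟩
    rw [mem_FX_of_pth hx, mem_FX_of_pth hxc]
  · exact FX_eq (pow_mem (self_mem_FX x) c) (not_pth_pow hx h0 hc)

theorem pth_pow_iff {x : K} {c : ℕ} (h0 : 0 < c) (hc : c < p) : Pth p (x ^ c) ↔ Pth p x := by
  constructor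
  · intro h
    by_contra hx
    exact not_pth_pow hx h0 hc h
  · rintro ⟨a, rfl⟩
    exact ⟨a ^ c, by rw [← pow_mul, ← pow_mul, mul_comm]⟩

/-- uniqueness of the exponent `c` -/
theorem unique_c {x u r s : K} (hx : ¬ Pth p x) {c d : ℕ} (hc0 : 0 < c) (hc : c < p)
    (hd0 : 0 < d) (hd : d < p) (hr : r ≠ 0)
    (h1 : PEq p (u ^ c) (x ^ c + r ^ p)) (h2 : PEq p (u ^ d) (x ^ d + s ^ p)) : c = d := by
  obtain ⟨D, hD⟩ := exists_D hx
  have hx0 : x ≠ 0 := by
    rintro rfl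
    exact hx pth_zero
  have hne : ∀ (e : ℕ) (t : K), 0 < e → e < p → x ^ e + t ^ p ≠ 0 := by
    intro e t he0 he h
    apply not_pth_pow hx he0 he
    rw [eq_neg_of_add_eq_zero_left h]
    exact (pth_pow t).neg
  have hkey : ∀ (e : ℕ) (t : K), 0 < e → e < p → PEq p (u ^ e) (x ^ e + t ^ p) →
      D u * (x ^ e + t ^ p) = u * x ^ e := by
    intro e t he0 he h
    obtain ⟨a, ha, hae⟩ := h
    have h3 : D (u ^ e) = a ^ p * ((e : K) * x ^ e) := by
      rw [hae, Derivation.leibniz, map_add, D_pow_p (p := p) D t, D_pow_p (p := p) D a,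
        D_pow_of_eq hD]
      simp only [smul_eq_mul, mul_zero, add_zero]
    rw [Derivation.leibniz_pow] at h3
    obtain ⟨j, hj⟩ : ∃ j, e = j + 1 := ⟨e - 1, by omega⟩
    rw [hj] at h3
    simp only [Nat.add_sub_cancel, smul_eq_mul, nsmul_eq_mul] at h3
    rw [← hj] at h3
    have he' : (e : K) ≠ 0 := natCast_ne_zero he0 he
    have h4 : u ^ j * D u = a ^ p * x ^ e := by
      apply mul_left_cancel₀ he'
      linear_combination h3
    have h5 : u ^ e ≠ 0 := by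
      rw [hae]
      exact mul_ne_zero (pow_ne_zero _ ha) (hne e t he0 he)
    have hu0 : u ≠ 0 := by
      rintro rfl
      exact h5 (zero_pow (by omega))
    apply mul_left_cancel₀ (mul_ne_zero (pow_ne_zero j hu0) (pow_ne_zero p ha))
    have h6 : u ^ e = u ^ j * u := by rw [hj, pow_succ]
    calc u ^ j * a ^ p * (D u * (x ^ e + t ^ p)) = (u ^ j * D u) * (a ^ p * (x ^ e + t ^ p)) := by ring
      _ = (a ^ p * x ^ e) * (u ^ j * u) := by rw [h4, ← hae, h6]
      _ = _ := by ring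
  have k1 := hkey c r hc0 hc h1
  have k2 := hkey d s hd0 hd h2
  have hu0 : u ≠ 0 := by
    rintro rfl
    obtain ⟨a, ha, hae⟩ := h1
    rw [zero_pow (by omega)] at hae
    exact mul_ne_zero (pow_ne_zero _ ha) (hne c r hc0 hc) hae.symm
  -- x^c s^p = x^d r^p
  have h3 : x ^ c * s ^ p = x ^ d * r ^ p := by
    apply mul_left_cancel₀ hu0
    linear_combination (-(x ^ d + s ^ p)) * k1 + (x ^ c + r ^ p) * k2
  have h4 : D (x ^ c * s ^ p) = D (x ^ d * r ^ p) := by rw [h3]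
  rw [Derivation.leibniz, Derivation.leibniz, D_pow_p (p := p) D s, D_pow_p (p := p) D r,
    D_pow_of_eq hD, D_pow_of_eq hD] at h4
  simp only [smul_eq_mul, mul_zero, zero_add] at h4
  have h5 : ((c : K) - (d : K)) * (x ^ d * r ^ p) = 0 := by
    linear_combination h4 - (c : K) * h3
  have h6 : (c : K) = (d : K) := by
    rcases mul_eq_zero.mp h5 with h | h
    · exact sub_eq_zero.mp h
    · exact absurd h (mul_ne_zero (pow_ne_zero _ hx0) (pow_ne_zero _ hr))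
  exact CharP.natCast_injOn_Iio K p hc hd h6

end

variable {p : ℕ} [Fact p.Prime] {K L : Type*} [Field K] [CharP K p] [Field L] [CharP L p]

/-- the abstract properties of a map of representatives -/
structure Good (p : ℕ) {K L : Type*} [Field K] [Field L] (θ : K → L) : Prop where
  zero_iff : ∀ x, θ x = 0 ↔ x = 0
  mul : ∀ x y : K, x ≠ 0 → y ≠ 0 → PEq p (θ (x * y)) (θ x * θ y)
  pth : ∀ x : K, Pth p x ↔ Pth p (θ x)
  dep : ∀ x y : K, y ∈ FX p x ↔ θ y ∈ FX p (θ x)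

namespace Good
variable {θ : K → L} (h : Good p θ)
include h

theorem ne_zero {x : K} (hx : x ≠ 0) : θ x ≠ 0 := fun h' => hx ((h.zero_iff x).mp h')

theorem one : PEq p (θ 1) 1 :=
  PEq.of_pth ((h.pth 1).mp pth_one) (h.ne_zero one_ne_zero)

theorem of_pth {x : K} (hx : Pth p x) (hx0 : x ≠ 0) : PEq p (θ x) 1 :=
  PEq.of_pth ((h.pth x).mp hx) (h.ne_zero hx0)

theorem congr {x y : K} (hy : y ≠ 0) (hxy : PEq p x y) : PEq p (θ x) (θ y) := by
  obtain ⟨a, ha, rfl⟩ := hxy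
  have h1 := h.mul (a ^ p) y (pow_ne_zero _ ha) hy
  have h2 := h.of_pth (pth_pow a) (pow_ne_zero _ ha)
  have h3 := h1.trans (h2.mul (PEq.refl (θ y)))
  rwa [one_mul] at h3

theorem div {x y : K} (hx : x ≠ 0) (hy : y ≠ 0) : PEq p (θ (x / y)) (θ x / θ y) := by
  have h1 := h.mul (x / y) y (div_ne_zero hx hy) hy
  rw [div_mul_cancel₀ _ hy] at h1
  have h2 := (h1.symm).mul (PEq.refl (p := p) (θ y)⁻¹)
  rw [mul_assoc, mul_inv_cancel₀ (h.ne_zero hy), mul_one, ← div_eq_mul_inv] at h2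
  exact h2

theorem inj {x y : K} (hx : x ≠ 0) (hy : y ≠ 0) (hxy : PEq p (θ x) (θ y)) : PEq p x y := by
  have h1 := h.div hx hy
  have h2 : PEq p (θ x / θ y) 1 := by
    have := hxy.mul (PEq.refl (p := p) (θ y)⁻¹)
    rwa [mul_inv_cancel₀ (h.ne_zero hy), ← div_eq_mul_inv] at this
  have h3 : Pth p (θ (x / y)) := (h1.trans h2).symm.pth pth_one
  have h4 := PEq.of_pth ((h.pth _).mpr h3) (div_ne_zero hx hy)
  have h5 := h4.mul (PEq.refl (p := p) y)
  rwa [div_mul_cancel₀ _ hy, one_mul] at h5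

theorem pow {x : K} (hx : x ≠ 0) (n : ℕ) : PEq p (θ (x ^ n)) (θ x ^ n) := by
  induction n with
  | zero => rw [pow_zero, pow_zero]; exact h.one
  | succ n ih =>
    rw [pow_succ, pow_succ]
    exact (h.mul _ _ (pow_ne_zero n hx) hx).trans (ih.mul (PEq.refl _))

/-- the power of a good map by `c` prime to `p` is good -/
theorem good_pow {c : ℕ} (h0 : 0 < c) (hc : c < p) : Good p (fun x => θ x ^ c) where
  zero_iff := by
    intro x
    rw [pow_eq_zero_iff (by omega), h.zero_iff]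
  mul := by
    intro x y hx hy
    have := (h.mul x y hx hy).pow c
    rwa [mul_pow] at this
  pth := by
    intro x
    rw [pth_pow_iff h0 hc, h.pth]
  dep := by
    intro x y
    rw [FX_pow h0 hc, h.dep]
    constructor
    · intro h1
      exact pow_mem h1 c
    · intro h1
      have h2 : FX p (θ y ^ c) ≤ FX p (θ x) := FX_le h1
      rw [FX_pow h0 hc] at h2
      exact h2 (self_mem_FX _)

/-- `θ (x + r^p)` is not a monomial in `θ x`. -/
theorem not_monomial {x r : K} (hx : ¬ Pth p x) (hr : r ≠ 0) :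
    ∀ i < p, ∀ t : L, θ (x + r ^ p) ≠ t ^ p * θ x ^ i := by
  intro i hi t ht
  have hx0 : x ≠ 0 := by
    rintro rfl
    exact hx pth_zero
  have hu0 : x + r ^ p ≠ 0 := by
    intro h1
    apply hx
    rw [eq_neg_of_add_eq_zero_left h1]
    exact (pth_pow r).neg
  have ht0 : t ≠ 0 := by
    rintro rfl
    rw [zero_pow (Fact.out : p.Prime).ne_zero, zero_mul] at ht
    exact h.ne_zero hu0 ht
  have h1 : PEq p (θ (x + r ^ p)) (θ (x ^ i)) :=
    PEq.trans ⟨t, ht0, ht⟩ (h.pow hx0 i).symm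
  obtain ⟨a, ha, hae⟩ := h.inj hu0 (pow_ne_zero i hx0) h1
  obtain ⟨D, hD⟩ := exists_D hx
  have h2 : D (x + r ^ p) = (i : K) * (x + r ^ p) := by
    conv_lhs => rw [hae]
    rw [Derivation.leibniz, D_pow_of_eq hD, D_pow_p (p := p) D a]
    simp only [smul_eq_mul, mul_zero, add_zero]
    rw [hae]
    ring
  rw [map_add, hD, D_pow_p (p := p) D r, add_zero] at h2
  by_cases hi1 : (i : K) = 1
  · rw [hi1, one_mul] at h2
    have h3 : r ^ p = 0 := by linear_combination -h2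
    exact pow_ne_zero p hr h3
  · apply hx
    have h3 : (1 - (i : K)) ≠ 0 := by
      intro h4
      exact hi1 (sub_eq_zero.mp h4).symm
    have h4 : x = ((i : K) * r ^ p) / (1 - (i : K)) := by
      rw [eq_div_iff h3]
      linear_combination h2
    rw [h4]
    have h5 : Pth p (i : K) := ⟨(i : K), (natCast_pow_p i).symm⟩
    exact (h5.mul (pth_pow r)).div (pth_one.sub h5)

theorem config {x y r s : K} (hx : ¬ Pth p x) (hy : y ∉ FX p x) (hr : r ≠ 0) (hs : s ≠ 0) :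
    ∃ c : ℕ, 0 < c ∧ c < p ∧ (∃ r' : L, r' ≠ 0 ∧ PEq p (θ (x + r ^ p) ^ c) (θ x ^ c + r' ^ p)) ∧
      (∃ s' : L, s' ≠ 0 ∧ PEq p (θ (y + s ^ p) ^ c) (θ y ^ c + s' ^ p)) := by
  have hyp : ¬ Pth p y := fun h' => hy h'.mem_FX
  have hx0 : x ≠ 0 := by
    rintro rfl
    exact hx pth_zero
  have hy0 : y ≠ 0 := by
    rintro rfl
    exact hyp pth_zero
  have hu0 : x + r ^ p ≠ 0 := by
    intro h1
    apply hx
    rw [eq_neg_of_add_eq_zero_left h1]
    exact (pth_pow r).neg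
  have hv0 : y + s ^ p ≠ 0 := by
    intro h1
    apply hyp
    rw [eq_neg_of_add_eq_zero_left h1]
    exact (pth_pow s).neg
  have hr' : r ^ p ≠ 0 := pow_ne_zero _ hr
  have hs' : s ^ p ≠ 0 := pow_ne_zero _ hs
  set z : K := x / r ^ p - y / s ^ p with hz
  have hz0 : z ≠ 0 := by
    intro h1
    apply hy
    have h2 : y = s ^ p * (x / r ^ p) := by
      have := sub_eq_zero.mp h1
      rw [this]
      field_simp
    rw [h2]
    exact mul_mem (pth_pow s).mem_FX (div_mem (self_mem_FX x) (pth_pow r).mem_FX)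
  have hz1 : z / y ∈ FX p (x / y) := by
    have : z / y = (x / y) / r ^ p - 1 / s ^ p := by
      rw [hz]
      field_simp
    rw [this]
    exact sub_mem (div_mem (self_mem_FX _) (pth_pow r).mem_FX)
      (div_mem (one_mem _) (pth_pow s).mem_FX)
  have hz2 : z / (y + s ^ p) ∈ FX p ((x + r ^ p) / (y + s ^ p)) := by
    have : z / (y + s ^ p) = ((x + r ^ p) / (y + s ^ p)) / r ^ p - 1 / s ^ p := by
      rw [hz]
      field_simp
      ring
    rw [this]
    exact sub_mem (div_mem (self_mem_FX _) (pth_pow r).mem_FX)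
      (div_mem (one_mem _) (pth_pow s).mem_FX)
  have hxL : ¬ Pth p (θ x) := fun h' => hx ((h.pth x).mpr h')
  have hyL : θ y ∉ FX p (θ x) := fun h' => hy ((h.dep x y).mpr h')
  refine Crest.Agent.R009.config (z := θ z) hxL hyL ?_ ?_ (h.not_monomial hx hr)
    (h.not_monomial hyp hs) (h.ne_zero hz0) ?_ ?_
  · exact (h.dep _ _).mp (add_mem (self_mem_FX x) (pth_pow r).mem_FX)
  · exact (h.dep _ _).mp (add_mem (self_mem_FX y) (pth_pow s).mem_FX)
  · have h1 := (h.dep _ _).mp hz1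
    rw [(h.div hx0 hy0).FX_eq] at h1
    exact (h.div hz0 hy0).mem h1
  · have h1 := (h.dep _ _).mp hz2
    rw [(h.div hu0 hv0).FX_eq] at h1
    exact (h.div hz0 hv0).mem h1

/-- the global exponent -/
theorem exists_c (hd : ∀ x : K, ∃ y, y ∉ FX p x) :
    ∃ c : ℕ, 0 < c ∧ c < p ∧ ∀ x r : K, ¬ Pth p x → r ≠ 0 →
      ∃ r' : L, r' ≠ 0 ∧ PEq p (θ (x + r ^ p) ^ c) (θ x ^ c + r' ^ p) := by
  obtain ⟨x₀, hx₀'⟩ := hd 1
  have hx₀ : ¬ Pth p x₀ := fun h' => hx₀' h'.mem_FX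
  obtain ⟨y₀, hy₀'⟩ := hd x₀
  have hy₀ : ¬ Pth p y₀ := fun h' => hy₀' h'.mem_FX
  obtain ⟨c, hc0, hc, ⟨r₁, hr₁, h1⟩, ⟨s₁, hs₁, h2⟩⟩ :=
    h.config (r := 1) (s := 1) hx₀ hy₀' one_ne_zero one_ne_zero
  refine ⟨c, hc0, hc, ?_⟩
  intro x r hx hr
  by_cases hxx : x ∈ FX p x₀
  · -- then `y₀ ∉ FX x`
    have h3 : y₀ ∉ FX p x := by
      rw [FX_eq hxx hx]
      exact hy₀'
    obtain ⟨d, hd0, hdp, ⟨r₂, hr₂, h4⟩, ⟨s₂, hs₂, h5⟩⟩ :=
      h.config (r := r) (s := 1) hx h3 hr one_ne_zero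
    have hyL : ¬ Pth p (θ y₀) := fun h' => hy₀ ((h.pth _).mpr h')
    have hcd : c = d := unique_c hyL hc0 hc hd0 hdp hs₁ h2 h5
    subst hcd
    exact ⟨r₂, hr₂, h4⟩
  · obtain ⟨d, hd0, hdp, ⟨r₂, hr₂, h4⟩, ⟨s₂, hs₂, h5⟩⟩ :=
      h.config (r := 1) (s := r) hx₀ hxx one_ne_zero hr
    have hxL : ¬ Pth p (θ x₀) := fun h' => hx₀ ((h.pth _).mpr h')
    have hcd : c = d := unique_c hxL hc0 hc hd0 hdp hr₁ h1 h4
    subst hcd
    exact ⟨s₂, hs₂, h5⟩

end Good

end Crest.Agent.R009
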