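import Crest.Agent.R009.Basic

/-!
Reconstruction of a ring homomorphism from a line-preserving map.
-/

set_option autoImplicit false

namespace Crest.Agent.R009

namespace Recon

open scoped Pointwise

section Aux

variable {p : ℕ} [Fact p.Prime] {K : Type*} [Field K] [CharP K p]

theorem peq_refl (x : K) : PEq p x x := ⟨1, one_ne_zero, by simp⟩

omit [Fact p.Prime] [CharP K p] in
theorem peq_symm {x y : K} (h : PEq p x y) : PEq p y x := by
  obtain ⟨a, ha, rfl⟩ := h
  refine ⟨a⁻¹, inv_ne_zero ha, ?_⟩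
  rw [← mul_assoc, ← mul_pow, inv_mul_cancel₀ ha, one_pow, one_mul]

omit [Fact p.Prime] [CharP K p] in
theorem peq_trans {x y z : K} (h : PEq p x y) (h' : PEq p y z) : PEq p x z := by
  obtain ⟨a, ha, rfl⟩ := h
  obtain ⟨b, hb, rfl⟩ := h'
  exact ⟨a * b, mul_ne_zero ha hb, by rw [mul_pow]; ring⟩

omit [Fact p.Prime] [CharP K p] in
theorem peq_mul {x y x' y' : K} (h : PEq p x x') (h' : PEq p y y') :
    PEq p (x * y) (x' * y') := by
  obtain ⟨a, ha, rfl⟩ := h
  obtain ⟨b, hb, rfl⟩ := h'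
  exact ⟨a * b, mul_ne_zero ha hb, by rw [mul_pow]; ring⟩

omit [Fact p.Prime] [CharP K p] in
theorem peq_mul_right {x x' : K} (h : PEq p x x') (y : K) :
    PEq p (x * y) (x' * y) := by
  obtain ⟨a, ha, rfl⟩ := h
  exact ⟨a, ha, by ring⟩

omit [Fact p.Prime] [CharP K p] in
theorem peq_cancel {x x' y : K} (hy : y ≠ 0) (h : PEq p (x * y) (x' * y)) : PEq p x x' := by
  obtain ⟨a, ha, h⟩ := h
  exact ⟨a, ha, mul_right_cancel₀ hy (by rw [h]; ring)⟩

theorem peq_pth {x y : K} (h : PEq p x y) : Pth p x ↔ Pth p y := by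
  constructor
  · intro hx
    obtain ⟨a, ha, h⟩ := peq_symm h
    rw [h]; exact (pth_pow a).mul hx
  · intro hx
    obtain ⟨a, ha, h⟩ := h
    rw [h]; exact (pth_pow a).mul hx

omit [Fact p.Prime] [CharP K p] in
theorem peq_ne_zero {x y : K} (h : PEq p x y) (hy : y ≠ 0) : x ≠ 0 := by
  obtain ⟨a, ha, rfl⟩ := h
  exact mul_ne_zero (pow_ne_zero _ ha) hy

theorem peq_of_pth {x y : K} (hx : Pth p x) (hy : Pth p y) (hx0 : x ≠ 0) (hy0 : y ≠ 0) :
    PEq p x y := by
  have hp : p ≠ 0 := (Fact.out : p.Prime).ne_zero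
  obtain ⟨a, rfl⟩ := hx
  obtain ⟨b, rfl⟩ := hy
  have ha : a ≠ 0 := fun h => hx0 (by rw [h, zero_pow hp])
  have hb : b ≠ 0 := fun h => hy0 (by rw [h, zero_pow hp])
  refine ⟨a / b, div_ne_zero ha hb, ?_⟩
  rw [div_pow, div_mul_cancel₀ _ (pow_ne_zero _ hb)]

theorem mem_FX_of_peq {x y z : K} (h : PEq p y z) (hy : z ∈ FX p x) : y ∈ FX p x := by
  obtain ⟨a, ha, rfl⟩ := h
  exact (FX p x).mul_mem (pth_pow a).mem_FX hy

theorem FX_eq_of_peq {x y : K} (h : PEq p x y) : FX p x = FX p y :=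
  le_antisymm (FX_le (mem_FX_of_peq h (self_mem_FX y)))
    (FX_le (mem_FX_of_peq (peq_symm h) (self_mem_FX x)))

/-- `p`-independent pairs -/
def Ind (p : ℕ) (x y : K) : Prop := ¬ Pth p x ∧ y ∉ FX p x

theorem Ind.symm {x y : K} (h : Ind p x y) : Ind p y x := by
  refine ⟨fun hy => h.2 hy.mem_FX, fun hx => h.2 (FX_exchange hx h.1)⟩

theorem ind_of_not_mem {x y : K} (hx : ¬ Pth p x) (hy : y ∉ FX p x) : Ind p x y := ⟨hx, hy⟩

theorem ind_congr {x y x' y' : K} (hx : PEq p x x') (hy : PEq p y y') (h : Ind p x y) :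
    Ind p x' y' := by
  refine ⟨fun h' => h.1 ((peq_pth hx).2 h'), fun h' => h.2 ?_⟩
  rw [FX_eq_of_peq hx]
  exact mem_FX_of_peq hy h'

theorem lin2 {X : K} (h : ¬ Pth p X) {a b : K} (ha : Pth p a) (hb : Pth p b)
    (he : a + b * X = 0) : a = 0 ∧ b = 0 := by
  have hb0 : b = 0 := by
    by_contra hb0
    apply h
    have : X = (-a) / b := by
      field_simp
      linear_combination he
    rw [this]
    exact ha.neg.div hb
  subst hb0
  refine ⟨?_, rfl⟩
  simpa using he

theorem lin3 {X Y : K} (h : Ind p X Y) {a b c : K} (ha : Pth p a) (hb : Pth p b) (hc : Pth p c)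
    (he : a + b * X + c * Y = 0) : a = 0 ∧ b = 0 ∧ c = 0 := by
  have hc0 : c = 0 := by
    by_contra hc0
    apply h.2
    have : Y = (-(a + b * X)) / c := by
      field_simp
      linear_combination he
    rw [this]
    refine (FX p X).div_mem ((FX p X).neg_mem ((FX p X).add_mem ha.mem_FX
      ((FX p X).mul_mem hb.mem_FX (self_mem_FX X)))) hc.mem_FX
  subst hc0
  have := lin2 h.1 ha hb (by simpa using he)
  exact ⟨this.1, this.2, rfl⟩

theorem infinite_of_hd (hd : ∀ x : K, ∃ y, y ∉ FX p x) : Infinite K := by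
  by_contra hK
  rw [not_infinite_iff_finite] at hK
  obtain ⟨y, hy⟩ := hd 0
  apply hy
  have hs : Function.Surjective (frobenius K p) :=
    Finite.surjective_of_injective (frobenius K p).injective
  obtain ⟨z, hz⟩ := hs y
  rw [← hz, frobenius_def]
  exact (pth_pow z).mem_FX

theorem not_finiteIndex (hd : ∀ x : K, ∃ y, y ∉ FX p x) (x : K) :
    ¬ (FX p x).toAddSubgroup.FiniteIndex := by
  intro hfi
  have hinf : Infinite K := infinite_of_hd hd
  obtain ⟨y, hy⟩ := hd x
  have : Finite (K ⧸ (FX p x).toAddSubgroup) := AddSubgroup.finite_quotient_of_finiteIndex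
  have hinj : Function.Injective (fun a : K => (QuotientAddGroup.mk (a ^ p * y) :
      K ⧸ (FX p x).toAddSubgroup)) := by
    intro a b hab
    simp only [QuotientAddGroup.eq] at hab
    by_contra hne
    apply hy
    have hp0 : b ^ p - a ^ p ≠ 0 := by
      intro h0
      apply hne
      have := sub_eq_zero.1 h0
      exact (frobenius K p).injective (by simpa [frobenius_def] using this.symm)
    have hmem : (b ^ p - a ^ p) * y ∈ FX p x := by
      have : (b ^ p - a ^ p) * y = -(a ^ p * y) + b ^ p * y := by ring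
      rw [this]; exact hab
    have : y = ((b ^ p - a ^ p) * y) / (b ^ p - a ^ p) := by field_simp
    rw [this]
    exact (FX p x).div_mem hmem ((pth_pow b).sub (pth_pow a)).mem_FX
  exact not_injective_infinite_finite _ hinj

/-- generic choice: finitely many cosets of subfields `K^p(x)` do not cover `K` -/
theorem avoid (hd : ∀ x : K, ∃ y, y ∉ FX p x) (s : Finset (K × K)) :
    ∃ w : K, ∀ q ∈ s, q.1 + w ∉ FX p q.2 := by
  by_contra hcon
  push Not at hcon
  have hcov : ⋃ i ∈ s, (-i.1) +ᵥ ((FX p i.2).toAddSubgroup : Set K) = Set.univ := by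
    rw [Set.eq_univ_iff_forall]
    intro w
    obtain ⟨q, hq, hw⟩ := hcon w
    simp only [Set.mem_iUnion]
    refine ⟨q, hq, ?_⟩
    rw [Set.mem_vadd_set_iff_neg_vadd_mem]
    simpa using hw
  obtain ⟨k, hk, hfi⟩ := AddSubgroup.exists_finiteIndex_of_leftCoset_cover hcov
  exact not_finiteIndex hd _ hfi

end Aux

section Main

variable {p : ℕ} [Fact p.Prime] {K L : Type*} [Field K] [CharP K p] [Field L] [CharP L p]

/-- the hypotheses on the map `θ` together with a choice of the normalised representative `α`. -/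
structure Hyp (p : ℕ) (θ α : K → L) : Prop where
  hd : ∀ x : K, ∃ y, y ∉ FX p x
  h0 : ∀ x, θ x = 0 ↔ x = 0
  hmul : ∀ x y : K, x ≠ 0 → y ≠ 0 → PEq p (θ (x * y)) (θ x * θ y)
  hpth : ∀ x : K, Pth p x ↔ Pth p (θ x)
  hdep : ∀ x y : K, y ∈ FX p x ↔ θ y ∈ FX p (θ x)
  hα : ∀ x : K, ¬ Pth p x → PEq p (α x) (θ x)
  hα1 : ∀ x : K, ¬ Pth p x → PEq p (θ (1 + x)) (1 + α x)

variable {θ α : K → L} (H : Hyp p θ α)
include H

theorem Hyp.npth {x : K} (hx : ¬ Pth p x) : ¬ Pth p (α x) := fun h =>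
  hx ((H.hpth x).2 ((peq_pth (H.hα x hx)).1 h))

theorem Hyp.ind {x y : K} (h : Ind p x y) : Ind p (α x) (α y) := by
  refine ind_congr (peq_symm (H.hα x h.1)) (peq_symm (H.hα y h.symm.1)) ⟨fun h' => h.1 ((H.hpth x).2 h'), ?_⟩
  exact fun h' => h.2 ((H.hdep x y).2 h')

omit H in
theorem ne_zero_of_npth {x : K} (hx : ¬ Pth p x) : x ≠ 0 := fun h => hx (h ▸ pth_zero)

omit H in
theorem npth_of_not_mem {x y : K} (h : y ∉ FX p x) : ¬ Pth p y := fun h' => h h'.mem_FX

omit H in
theorem one_add_npth {x : K} (hx : ¬ Pth p x) : ¬ Pth p (1 + x) := fun h => hx (by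
  have := h.sub (pth_one (p := p) (K := K))
  simpa using this)

theorem Hyp.S1 {x y : K} (h : Ind p x y) :
    ∃ l : L, Pth p l ∧ PEq p (θ (1 + x + y)) (1 + α x + l * α y) := by
  have hx1 : (1 + x) ≠ 0 := ne_zero_of_npth (one_add_npth h.1)
  have hxm : 1 + x ∈ FX p x := (FX p x).add_mem pth_one.mem_FX (self_mem_FX x)
  set z := y / (1 + x) with hz
  have hyz : z * (1 + x) = y := by rw [hz]; field_simp
  have hzn : z ∉ FX p x := fun hzm => h.2 (hyz ▸ (FX p x).mul_mem hzm hxm)
  have hzp : ¬ Pth p z := npth_of_not_mem hzn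
  have hz0 : z ≠ 0 := ne_zero_of_npth hzp
  have h1z : ¬ Pth p (1 + z) := one_add_npth hzp
  have hX1 : (1 + α x) ≠ 0 := ne_zero_of_npth (one_add_npth (H.npth h.1))
  -- α z (1 + α x) ~ α y
  have e1 : PEq p (α z * (1 + α x)) (α y) := by
    refine peq_trans (peq_mul (H.hα z hzp) (peq_symm (H.hα1 x h.1))) ?_
    refine peq_trans (peq_symm (H.hmul z (1 + x) hz0 hx1)) ?_
    rw [hyz]
    exact peq_symm (H.hα y h.symm.1)
  obtain ⟨l, hl, e1⟩ := e1
  refine ⟨l ^ p, pth_pow l, ?_⟩
  have e2 : 1 + x + y = (1 + x) * (1 + z) := by rw [← hyz]; ring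
  rw [e2]
  refine peq_trans (H.hmul _ _ hx1 (ne_zero_of_npth h1z)) ?_
  refine peq_trans (peq_mul (H.hα1 x h.1) (H.hα1 z hzp)) ?_
  have : (1 + α x) * (1 + α z) = 1 + α x + l ^ p * α y := by rw [← e1]; ring
  rw [this]
  exact peq_refl _

theorem Hyp.S2 {x y : K} (h : Ind p x y) :
    PEq p (θ (1 + x + y)) (1 + α x + α y) := by
  obtain ⟨l, hl, h1⟩ := H.S1 h
  obtain ⟨m, hm, h2⟩ := H.S1 h.symm
  have e : 1 + y + x = 1 + x + y := by ring
  rw [e] at h2
  obtain ⟨c, hc, h3⟩ := peq_trans (peq_symm h1) h2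
  have := lin3 (H.ind h) (a := 1 - c ^ p) (b := 1 - c ^ p * m) (c := l - c ^ p)
    (pth_one.sub (pth_pow c)) (pth_one.sub ((pth_pow c).mul hm)) (hl.sub (pth_pow c))
    (by linear_combination h3)
  have hl1 : l = 1 := by linear_combination this.2.2 - this.1
  rw [hl1, one_mul] at h1
  exact h1

omit H in
theorem Ind.add_npth {x y : K} (h : Ind p x y) : ¬ Pth p (x + y) := fun h' => h.2 (by
  have : y = (x + y) - x := by ring
  rw [this]; exact (FX p x).sub_mem h'.mem_FX (self_mem_FX x))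

theorem Hyp.add_ind {x y : K} (h : Ind p x y) : α (x + y) = α x + α y := by
  have hxy := h.add_npth
  have hx0 : x ≠ 0 := ne_zero_of_npth h.1
  have hy0 : y ≠ 0 := ne_zero_of_npth h.symm.1
  have h1 := H.S2 h
  have h2 := H.hα1 (x + y) hxy
  rw [← add_assoc] at h2
  obtain ⟨c, hc, h3⟩ := peq_trans (peq_symm h2) h1
  -- second computation
  set w := y / x with hw
  have hwx : w * x = y := by rw [hw]; field_simp
  have hwn : ¬ Pth p w := fun hp => h.2 (hwx ▸ (FX p x).mul_mem hp.mem_FX (self_mem_FX x))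
  have e1 : PEq p (α w * α x) (α y) := by
    refine peq_trans (peq_mul (H.hα w hwn) (H.hα x h.1)) ?_
    refine peq_trans (peq_symm (H.hmul w x (ne_zero_of_npth hwn) hx0)) ?_
    rw [hwx]
    exact peq_symm (H.hα y h.symm.1)
  obtain ⟨m, hm, e1⟩ := e1
  have e2 : PEq p (α (x + y)) (α x + m ^ p * α y) := by
    refine peq_trans (H.hα _ hxy) ?_
    have : x + y = x * (1 + w) := by rw [← hwx]; ring
    rw [this]
    refine peq_trans (H.hmul _ _ hx0 (ne_zero_of_npth (one_add_npth hwn))) ?_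
    refine peq_trans (peq_mul (peq_symm (H.hα x h.1)) (H.hα1 w hwn)) ?_
    have : α x * (1 + α w) = α x + m ^ p * α y := by rw [← e1]; ring
    rw [this]
    exact peq_refl _
  obtain ⟨f, hf, e2⟩ := e2
  have := lin3 (H.ind h) (a := c ^ p - 1) (b := c ^ p - f ^ p) (c := c ^ p - f ^ p * m ^ p)
    ((pth_pow c).sub pth_one) ((pth_pow c).sub (pth_pow f))
    ((pth_pow c).sub ((pth_pow f).mul (pth_pow m)))
    (by linear_combination e2 - h3)
  have hc1 : c ^ p = 1 := by linear_combination this.1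
  rw [hc1] at h3
  linear_combination h3

/-- independence of the auxiliary element -/
theorem Hyp.indep {u w w' : K} (hw : w ∉ FX p u) (hw' : w' ∉ FX p u) :
    α (u + w) - α w = α (u + w') - α w' := by
  classical
  obtain ⟨v, hv⟩ := avoid H.hd {(0, u + w), (u, w), (0, u + w'), (u, w')}
  have h1 := hv (0, u + w) (by simp)
  have h2 := hv (u, w) (by simp)
  have h3 := hv (0, u + w') (by simp)
  have h4 := hv (u, w') (by simp)
  simp only [zero_add] at h1 h2 h3 h4
  have hu : ∀ {w : K}, w ∉ FX p u → ¬ Pth p (u + w) := fun {w} hw hp => hw (by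
    have : w = (u + w) - u := by ring
    rw [this]; exact (FX p u).sub_mem hp.mem_FX (self_mem_FX u))
  have key : ∀ {w : K}, w ∉ FX p u → v ∉ FX p (u + w) → u + v ∉ FX p w →
      α (u + w) - α w = α (u + v) - α v := by
    intro w hw h1 h2
    have a1 := H.add_ind (ind_of_not_mem (hu hw) h1)
    have a2 := H.add_ind (ind_of_not_mem (npth_of_not_mem hw) h2)
    have : u + w + v = w + (u + v) := by ring
    rw [this] at a1
    linear_combination a2 - a1
  rw [key hw h1 h2, key hw' h3 h4]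

/-- the extension of `α` to all of `K` -/
noncomputable def Hyp.beta (u : K) : L := α (u + (H.hd u).choose) - α (H.hd u).choose

theorem Hyp.beta_eq {u w : K} (hw : w ∉ FX p u) : H.beta u = α (u + w) - α w :=
  H.indep (H.hd u).choose_spec hw

theorem Hyp.beta_of_npth {u : K} (hu : ¬ Pth p u) : H.beta u = α u := by
  have hw := (H.hd u).choose_spec
  rw [H.beta_eq hw, H.add_ind (ind_of_not_mem hu hw)]
  ring

theorem Hyp.beta_add (u v : K) : H.beta (u + v) = H.beta u + H.beta v := by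
  classical
  obtain ⟨w, hw⟩ := avoid H.hd {(0, u + v), (v, u), (0, v)}
  have h1 := hw (0, u + v) (by simp)
  have h2 := hw (v, u) (by simp)
  have h3 := hw (0, v) (by simp)
  simp only [zero_add] at h1 h2 h3
  rw [H.beta_eq h1, H.beta_eq h2, H.beta_eq h3, add_assoc]
  ring

theorem Hyp.beta_zero : H.beta 0 = 0 := by
  have := H.beta_add 0 0
  rw [add_zero] at this
  linear_combination -this

theorem Hyp.beta_class {u : K} (hu : u ≠ 0) : PEq p (θ u) (H.beta u) := by
  by_cases hup : Pth p u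
  swap
  · rw [H.beta_of_npth hup]
    exact peq_symm (H.hα u hup)
  -- `u` is a nonzero `p`-th power
  have hθu : Pth p (θ u) := (H.hpth u).1 hup
  have hθu0 : θ u ≠ 0 := fun h => hu ((H.h0 u).1 h)
  have key : ∀ w : K, ¬ Pth p w → ∃ e f : L, Pth p e ∧ Pth p f ∧ e ≠ 0 ∧
      α (u + w) = e + f * α w := by
    intro w hw
    set z := w / u with hz
    have hzu : u * z = w := by rw [hz]; field_simp
    have hzn : ¬ Pth p z := fun h => hw (hzu ▸ hup.mul h)
    have hz0 : z ≠ 0 := ne_zero_of_npth hzn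
    have hunp : ¬ Pth p (u + w) := fun h => hw (by
      have : w = (u + w) - u := by ring
      rw [this]; exact h.sub hup)
    have e1 : PEq p (α z) (α w) := by
      refine peq_trans (H.hα z hzn) (peq_trans ?_ (peq_symm (H.hα w hw)))
      have := H.hmul u z hu hz0
      rw [hzu] at this
      refine peq_symm (peq_trans this ?_)
      have h1 := peq_mul_right (peq_of_pth hθu pth_one hθu0 one_ne_zero) (θ z)
      rwa [one_mul] at h1
    obtain ⟨l, hl, e1⟩ := e1
    have e2 : PEq p (α (u + w)) (1 + α z) := by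
      refine peq_trans (H.hα _ hunp) ?_
      have : u + w = u * (1 + z) := by rw [← hzu]; ring
      rw [this]
      refine peq_trans (H.hmul _ _ hu (ne_zero_of_npth (one_add_npth hzn))) ?_
      have h1 := peq_mul (peq_of_pth hθu pth_one hθu0 one_ne_zero) (H.hα1 z hzn)
      rwa [one_mul] at h1
    obtain ⟨c, hc, e2⟩ := e2
    refine ⟨c ^ p, c ^ p * l ^ p, pth_pow c, (pth_pow c).mul (pth_pow l), pow_ne_zero _ hc, ?_⟩
    rw [e2, e1]; ring
  obtain ⟨w, hw⟩ := H.hd u
  have hwn : ¬ Pth p w := npth_of_not_mem hw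
  obtain ⟨w', hw'⟩ := H.hd w
  have hw'n : ¬ Pth p w' := npth_of_not_mem hw'
  have hFX : ∀ y, y ∈ FX p u ↔ Pth p y := fun y => mem_FX_of_pth hup
  obtain ⟨e, f, he, hf, he0, h1⟩ := key w hwn
  obtain ⟨e', f', he', hf', he0', h2⟩ := key w' hw'n
  have h3 := H.beta_eq hw
  have h4 := H.beta_eq (u := u) (w := w') (fun h => hw'n ((hFX w').1 h))
  rw [h1] at h3
  rw [h2] at h4
  have := lin3 (H.ind ⟨hwn, hw'⟩) (a := e - e') (b := f - 1) (c := 1 - f') (he.sub he')
    (hf.sub pth_one) (pth_one.sub hf') (by linear_combination h4 - h3)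
  have hb : H.beta u = e := by
    rw [h3]; linear_combination (α w) * this.2.1
  rw [hb]
  exact peq_of_pth hθu he hθu0 he0

theorem Hyp.beta_one : H.beta 1 = 1 := by
  obtain ⟨w, hw⟩ := H.hd 1
  have hwn : ¬ Pth p w := npth_of_not_mem hw
  have h1 : PEq p (α (1 + w)) (1 + α w) :=
    peq_trans (H.hα _ (one_add_npth hwn)) (H.hα1 w hwn)
  obtain ⟨c, hc, h1⟩ := h1
  have h2 := H.beta_eq hw
  rw [h1] at h2
  have hb : Pth p (H.beta 1) := (peq_pth (H.beta_class one_ne_zero)).1 ((H.hpth 1).1 pth_one)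
  have := lin2 (H.npth hwn) (a := c ^ p - H.beta 1) (b := c ^ p - 1) ((pth_pow c).sub hb)
    ((pth_pow c).sub pth_one) (by linear_combination -h2)
  linear_combination this.2 - this.1

theorem Hyp.beta_npth {u : K} (hu : ¬ Pth p u) : ¬ Pth p (H.beta u) := by
  rw [H.beta_of_npth hu]; exact H.npth hu

theorem Hyp.beta_mul_of_npth {u v : K} (hv : ¬ Pth p v) :
    H.beta (u * v) = H.beta u * H.beta v := by
  by_cases hu : u = 0
  · subst hu; rw [zero_mul, H.beta_zero, zero_mul]
  have hv0 : v ≠ 0 := ne_zero_of_npth hv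
  have key : ∀ v : K, v ≠ 0 → PEq p (H.beta (u * v)) (H.beta u * H.beta v) := by
    intro v hv0
    refine peq_trans (peq_symm (H.beta_class (mul_ne_zero hu hv0))) ?_
    exact peq_trans (H.hmul u v hu hv0) (peq_mul (H.beta_class hu) (H.beta_class hv0))
  obtain ⟨l, hl, h1⟩ := key v hv0
  obtain ⟨m, hm, h2⟩ := key (1 + v) (ne_zero_of_npth (one_add_npth hv))
  rw [mul_add, H.beta_add, H.beta_add, H.beta_one, mul_one] at h2
  have hbu : H.beta u ≠ 0 := by
    have := peq_symm (H.beta_class hu)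
    exact peq_ne_zero this (fun h => hu ((H.h0 u).1 h))
  have h3 : H.beta u * ((1 - m ^ p) + (l ^ p - m ^ p) * H.beta v) = 0 := by
    linear_combination h2 - h1
  have h4 := lin2 (H.beta_npth hv) (pth_one.sub (pth_pow m)) ((pth_pow l).sub (pth_pow m))
    ((mul_eq_zero.1 h3).resolve_left hbu)
  have : l ^ p = 1 := by linear_combination h4.2 - h4.1
  rw [h1, this, one_mul]

theorem Hyp.beta_mul (u v : K) : H.beta (u * v) = H.beta u * H.beta v := by
  by_cases hv : Pth p v
  swap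
  · exact H.beta_mul_of_npth hv
  obtain ⟨w, hw⟩ := H.hd v
  have hwn : ¬ Pth p w := npth_of_not_mem hw
  have hvw : ¬ Pth p (v + w) := fun h => hwn (by
      have : w = (v + w) - v := by ring
      rw [this]; exact h.sub hv)
  have h1 := H.beta_mul_of_npth (u := u) hvw
  have h2 := H.beta_mul_of_npth (u := u) hwn
  rw [mul_add, H.beta_add, H.beta_add, h2] at h1
  linear_combination h1

/-- the ring homomorphism -/
noncomputable def Hyp.ringHom : K →+* L where
  toFun := H.beta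
  map_one' := H.beta_one
  map_mul' := H.beta_mul
  map_zero' := H.beta_zero
  map_add' := H.beta_add

end Main

end Recon

variable {p : ℕ} [Fact p.Prime] {K L : Type*} [Field K] [CharP K p] [Field L] [CharP L p]

open Recon in
/-- TASK T3.  (`[x]` is the class of `x` modulo `p`-th powers.)
Proof: for `x ∉ K^p` there is a unique representative `α x` of `[θ x]` with `[θ (1+x)] = [1 + α x]`.
(1) additivity for `p`-independent `x,y`: compare the three computations of `[θ(1+x+y)]` (as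
`1+(x+y)`, `(1+x)(1+y/(1+x))`, `(1+y)(1+x/(1+y))`); `1, α x, α y` are linearly independent over `L^p`.
(2) extend to `K` by `α x := α (x+w) - α w` for `w ∉ K^p(x)` (independent of `w`), additive everywhere.
(3) multiplicativity from the comparison of `α (u (1 + v))` and `α (u v)`. -/
theorem reconstruct (hd : ∀ x : K, ∃ y, y ∉ FX p x) (θ : K → L)
    (h0 : ∀ x, θ x = 0 ↔ x = 0)
    (hmul : ∀ x y : K, x ≠ 0 → y ≠ 0 → PEq p (θ (x * y)) (θ x * θ y))
    (hpth : ∀ x : K, Pth p x ↔ Pth p (θ x))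
    (hdep : ∀ x y : K, y ∈ FX p x ↔ θ y ∈ FX p (θ x))
    (hLP : ∀ x : K, ¬ Pth p x → ∃ r : L, r ≠ 0 ∧ PEq p (θ (1 + x)) (1 + r ^ p * θ x)) :
    ∃ α : K →+* L, ∀ x : K, x ≠ 0 → PEq p (θ x) (α x) := by
  have hex : ∀ x : K, ∃ U : L, ¬ Pth p x → (PEq p U (θ x) ∧ PEq p (θ (1 + x)) (1 + U)) := by
    intro x
    by_cases hx : Pth p x
    · exact ⟨0, fun h => absurd hx h⟩
    · obtain ⟨r, hr, h⟩ := hLP x hx
      exact ⟨r ^ p * θ x, fun _ => ⟨⟨r, hr, rfl⟩, h⟩⟩
  choose α hα using hex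
  have H : Hyp p θ α := ⟨hd, h0, hmul, hpth, hdep, fun x hx => (hα x hx).1, fun x hx => (hα x hx).2⟩
  exact ⟨H.ringHom, fun x hx => H.beta_class hx⟩

end Crest.Agent.R009
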