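import Crest.Agent.R009.Basic

/-!
Rigidity: an endomorphism acting on `K^×/p` as a non-zero scalar is the identity.
-/

set_option autoImplicit false

namespace Crest.Agent.R009

variable {p : ℕ} [Fact p.Prime] {K : Type*} [Field K] [CharP K p]

open Finset

/-- a natural number is its own `p`-th power in characteristic `p` -/
theorem natCast_pow_char (n : ℕ) : ((n : K)) ^ p = (n : K) := by
  have := map_natCast (frobenius K p) n
  rwa [frobenius_def] at this

/-- the coefficient comparison behind `rigid` -/
theorem rigid_coeff {u v w : K} {e : ℕ} (hu : ¬ Pth p u) (he0 : 0 < e) (hep : e < p)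
    (h : 1 + v ^ p * u ^ e = w ^ p * (1 + u) ^ e) : e = 1 ∧ v = 1 := by
  have hp : p.Prime := Fact.out
  set a : ℕ → K := fun i => (if i = 0 then (1 : K) else 0) + (if i = e then v else 0)
      - w * ((e.choose i : ℕ) : K) with ha
  have hap : ∀ i, (a i) ^ p = (if i = 0 then (1 : K) else 0) + (if i = e then v ^ p else 0)
      - w ^ p * ((e.choose i : ℕ) : K) := by
    intro i
    rw [ha]
    simp only
    rw [sub_pow_char, add_pow_char, mul_pow, natCast_pow_char]
    congr 2
    · split_ifs
      · rw [one_pow]
      · rw [zero_pow hp.ne_zero]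
    · split_ifs
      · rfl
      · rw [zero_pow hp.ne_zero]
  have hsum : ∑ i ∈ range p, (a i) ^ p * u ^ i = 0 := by
    have h1 : ∑ i ∈ range p, (if i = 0 then (1 : K) else 0) * u ^ i = 1 := by
      rw [Finset.sum_eq_single 0]
      · simp
      · intro b _ hb
        simp [hb]
      · intro hb
        exact absurd (mem_range.2 hp.pos) hb
    have h2 : ∑ i ∈ range p, (if i = e then v ^ p else 0) * u ^ i = v ^ p * u ^ e := by
      rw [Finset.sum_eq_single e]
      · simp
      · intro b _ hb
        simp [hb]
      · intro hb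
        exact absurd (mem_range.2 hep) hb
    have h3 : ∑ i ∈ range p, w ^ p * ((e.choose i : ℕ) : K) * u ^ i = w ^ p * (1 + u) ^ e := by
      have hb : (1 + u) ^ e = ∑ i ∈ range (e + 1), ((e.choose i : ℕ) : K) * u ^ i := by
        rw [add_comm 1 u, add_pow]
        refine Finset.sum_congr rfl fun i _ => ?_
        rw [one_pow, mul_one, mul_comm]
      rw [hb, Finset.mul_sum]
      symm
      rw [← Finset.sum_subset (s₁ := range (e + 1)) (s₂ := range p)]
      · refine Finset.sum_congr rfl fun i _ => ?_
        ring
      · exact Finset.range_subset_range.2 hep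
      · intro i _ hi
        have : e.choose i = 0 := Nat.choose_eq_zero_of_lt (by
          rw [mem_range, not_lt] at hi; omega)
        simp [this]
    calc ∑ i ∈ range p, (a i) ^ p * u ^ i
        = ∑ i ∈ range p, ((if i = 0 then (1 : K) else 0) * u ^ i
            + (if i = e then v ^ p else 0) * u ^ i
            - w ^ p * ((e.choose i : ℕ) : K) * u ^ i) := by
          refine Finset.sum_congr rfl fun i _ => ?_
          rw [hap i]; ring
      _ = 1 + v ^ p * u ^ e - w ^ p * (1 + u) ^ e := by
          rw [Finset.sum_sub_distrib, Finset.sum_add_distrib, h1, h2, h3]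
      _ = 0 := by rw [h, sub_self]
  have hcoef := coeff_eq_zero hu hsum
  have hw : w = 1 := by
    have := hcoef 0 hp.pos
    rw [ha] at this
    simp only [if_true, Nat.choose_zero_right, Nat.cast_one, mul_one] at this
    rw [if_neg (by omega), add_zero] at this
    exact (sub_eq_zero.1 this).symm
  have hv : v = 1 := by
    have := hcoef e hep
    rw [ha] at this
    simp only [if_true, Nat.choose_self, Nat.cast_one, mul_one] at this
    rw [if_neg (by omega), zero_add] at this
    rw [sub_eq_zero.1 this, hw]
  refine ⟨?_, hv⟩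
  by_contra hne
  have h1p : 1 < p := hp.one_lt
  have := hcoef 1 h1p
  rw [ha] at this
  simp only [Nat.choose_one_right, hw, one_mul] at this
  rw [if_neg one_ne_zero, if_neg (by omega), zero_add, zero_sub, neg_eq_zero] at this
  rw [CharP.cast_eq_zero_iff K p] at this
  exact absurd (Nat.le_of_dvd he0 this) (by omega)

/-- TASK T4.
For `u ∉ K^p`: `γ u = v^p u^e` (reduce `e` mod `p`, `0 < e < p`), `γ (1+u) = 1 + v^p u^e = w^p (1+u)^e`; compare
coefficients in the basis `1,u,…,u^(p-1)` over `K^p`: `e = 1`, `w = 1`, `v = 1`, so `γ u = u`; for `u ∈ K^p`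
write `u = (u + x) - x`. -/
theorem rigid (hx : ∃ x : K, ¬ Pth p x) (γ : K →+* K) (e : ℕ) (he : ¬ p ∣ e)
    (h : ∀ x : K, x ≠ 0 → PEq p (γ x) (x ^ e)) : γ = RingHom.id K := by
  have hp : p.Prime := Fact.out
  have key : ∀ u : K, ¬ Pth p u → γ u = u := by
    intro u hu
    have hu0 : u ≠ 0 := by
      rintro rfl
      exact hu pth_zero
    have hu1 : 1 + u ≠ 0 := by
      intro h0
      apply hu
      have : u = -1 := by linear_combination h0
      rw [this]
      exact pth_one.neg
    obtain ⟨v, -, hv⟩ := h u hu0
    obtain ⟨w, -, hw⟩ := h (1 + u) hu1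
    rw [map_add, map_one, hv] at hw
    have hdm : p * (e / p) + e % p = e := Nat.div_add_mod e p
    have hmod0 : 0 < e % p := Nat.pos_of_ne_zero fun h0 => he (Nat.dvd_of_mod_eq_zero h0)
    have hmodp : e % p < p := Nat.mod_lt _ hp.pos
    have hsplit : ∀ t : K, t ^ e = (t ^ (e / p)) ^ p * t ^ (e % p) := by
      intro t
      conv_lhs => rw [← hdm]
      rw [pow_add, ← pow_mul, mul_comm p (e / p)]
    rw [hsplit u, hsplit (1 + u), ← mul_assoc, ← mul_assoc, ← mul_pow, ← mul_pow] at hw
    obtain ⟨he1, hv1⟩ := rigid_coeff hu hmod0 hmodp hw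
    rw [hv, hsplit u, ← mul_assoc, ← mul_pow, hv1, he1, one_pow, one_mul, pow_one]
  obtain ⟨x, hx⟩ := hx
  ext u
  rw [RingHom.id_apply]
  by_cases hu : Pth p u
  · have hux : ¬ Pth p (u + x) := by
      intro hh
      apply hx
      have : x = (u + x) - u := by ring
      rw [this]
      exact hh.sub hu
    have h1 := key _ hux
    rw [map_add, key x hx] at h1
    exact add_right_cancel h1
  · exact key u hu

end Crest.Agent.R009
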