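import Crest.Agent.R009.Config

/-!
Facts on `KOne`, `cls`, `steinberg`.
-/

set_option autoImplicit false
set_option linter.unusedSectionVars false

open Crest.NumberTheoryR.MilnorK
open scoped TensorProduct

namespace Crest.Agent.R009

section
variable {p : ℕ} [Fact p.Prime] {K : Type*} [Field K] [CharP K p]

theorem cls_mul (u v : Kˣ) : cls K p (u * v) = cls K p u + cls K p v := rfl

theorem cls_one : cls K p (1 : Kˣ) = 0 := rfl

theorem cls_surj (c : KOne K p) : ∃ u : Kˣ, cls K p u = c := by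
  obtain ⟨a, ha⟩ := QuotientAddGroup.mk_surjective c
  exact ⟨a.toMul, ha⟩

theorem cls_eq_zero_iff {u : Kˣ} : cls K p u = 0 ↔ Pth p (u : K) := by
  unfold cls
  rw [QuotientAddGroup.eq_zero_iff]
  constructor
  · rintro ⟨w, hw⟩
    refine ⟨(w.toMul : Kˣ), ?_⟩
    have h1 : u = w.toMul ^ p := by
      have := congrArg Additive.toMul hw
      exact this.symm
    rw [h1, Units.val_pow_eq_pow_val]
  · rintro ⟨a, ha⟩
    have ha0 : a ≠ 0 := by
      rintro rfl
      rw [zero_pow (Fact.out : p.Prime).ne_zero] at ha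
      exact u.ne_zero ha
    refine ⟨Additive.ofMul (Units.mk0 a ha0), ?_⟩
    apply Additive.toMul.injective
    apply Units.ext
    exact ha.symm

theorem cls_inv (u : Kˣ) : cls K p u⁻¹ = - cls K p u := rfl

theorem cls_eq_iff {u v : Kˣ} : cls K p u = cls K p v ↔ PEq p (u : K) (v : K) := by
  rw [← sub_eq_zero]
  have h1 : cls K p u - cls K p v = cls K p (u * v⁻¹) := by
    rw [cls_mul, cls_inv, sub_eq_add_neg]
  rw [h1, cls_eq_zero_iff]
  constructor
  · rintro ⟨a, ha⟩
    refine ⟨a, ?_, ?_⟩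
    · rintro rfl
      rw [zero_pow (Fact.out : p.Prime).ne_zero] at ha
      exact (u * v⁻¹).ne_zero ha
    · rw [← ha]
      simp
  · rintro ⟨a, _, ha⟩
    refine ⟨a, ?_⟩
    rw [Units.val_mul, ha]
    simp

theorem cls_pow (u : Kˣ) (n : ℕ) : cls K p (u ^ n) = (n : ZMod p) • cls K p u := by
  induction n with
  | zero => rw [pow_zero, cls_one, Nat.cast_zero, zero_smul]
  | succ n ih => rw [pow_succ, cls_mul, ih, Nat.cast_succ, add_smul, one_smul]

/-- logarithmic derivative as an additive map on `K^×/p`. -/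
def dlog (p : ℕ) [Fact p.Prime] {K : Type*} [Field K] [CharP K p] (D : Derivation ℤ K K) :
    KOne K p →+ K :=
  QuotientAddGroup.lift (pMultiples K p)
    { toFun := fun u => D ((u.toMul : Kˣ) : K) / ((u.toMul : Kˣ) : K)
      map_zero' := by
        simp
      map_add' := by
        intro a b
        rw [toMul_add, Units.val_mul, Derivation.leibniz]
        have ha := (a.toMul).ne_zero
        have hb := (b.toMul).ne_zero
        simp only [smul_eq_mul]
        field_simp
        ring }
    (by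
      rintro u ⟨w, rfl⟩
      rw [AddMonoidHom.mem_ker]
      have h1 : ((Additive.toMul ((nsmulAddMonoidHom p) w) : Kˣ) : K) = ((w.toMul : Kˣ) : K) ^ p := by
        rfl
      simp only [AddMonoidHom.coe_mk, ZeroHom.coe_mk]
      rw [h1, D_pow_p, zero_div])

theorem dlog_cls (D : Derivation ℤ K K) (u : Kˣ) : dlog p D (cls K p u) = D (u : K) / (u : K) := rfl

/-- the bilinear form `dlog D₁ ∧ dlog D₂` on `KOne ⊗ KOne` kills the Steinberg subspace. -/
theorem wedge_eq (D₁ D₂ : Derivation ℤ K K) {u v : Kˣ}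
    (h : TensorProduct.tmul (ZMod p) (cls K p u) (cls K p v) ∈ steinberg K p) :
    D₁ (u : K) * D₂ (v : K) = D₂ (u : K) * D₁ (v : K) := by
  let _ : Algebra (ZMod p) K := ZMod.algebra K p
  let l₁ : KOne K p →ₗ[ZMod p] K := (dlog p D₁).toZModLinearMap p
  let l₂ : KOne K p →ₗ[ZMod p] K := (dlog p D₂).toZModLinearMap p
  let B : TensorProduct (ZMod p) (KOne K p) (KOne K p) →ₗ[ZMod p] K :=
    TensorProduct.lift ((LinearMap.mul (ZMod p) K).compl₁₂ l₁ l₂ -
      (LinearMap.mul (ZMod p) K).compl₁₂ l₂ l₁)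
  have hB : ∀ a b : Kˣ, B (TensorProduct.tmul (ZMod p) (cls K p a) (cls K p b)) =
      (D₁ (a : K) / (a : K)) * (D₂ (b : K) / (b : K)) -
      (D₂ (a : K) / (a : K)) * (D₁ (b : K) / (b : K)) := fun a b => rfl
  have hker : steinberg K p ≤ LinearMap.ker B := by
    unfold steinberg
    rw [Submodule.span_le]
    rintro t ⟨f, hf, hf1, rfl⟩
    rw [SetLike.mem_coe, LinearMap.mem_ker, hB]
    simp only [Units.val_mk0, map_sub, Derivation.map_one_eq_zero, zero_sub]
    field_simp
    ring
  have h0 : B (TensorProduct.tmul (ZMod p) (cls K p u) (cls K p v)) = 0 := hker h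
  rw [hB] at h0
  have hu := u.ne_zero
  have hv := v.ne_zero
  field_simp at h0
  rw [mul_zero] at h0
  exact sub_eq_zero.mp h0

/-- Steinberg related implies `p`-dependent -/
theorem mem_FX_of_steinberg {u v : Kˣ} (hu : ¬ Pth p (u : K))
    (h : TensorProduct.tmul (ZMod p) (cls K p u) (cls K p v) ∈ steinberg K p) :
    (v : K) ∈ FX p (u : K) := by
  by_contra hv
  obtain ⟨D₁, D₂, h1, h2, h3, h4⟩ := exists_derivations hu hv
  have := wedge_eq D₁ D₂ h
  rw [h1, h2, h3, h4, zero_mul] at this
  exact mul_ne_zero u.ne_zero v.ne_zero this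

/-- points of the line through `1` and `x` are Steinberg related to `x`. -/
theorem steinberg_of_line {u v : Kˣ} (h : (v : K) = 1 + (u : K)) :
    TensorProduct.tmul (ZMod p) (cls K p u) (cls K p v) ∈ steinberg K p := by
  have hneg : cls K p (-u) = cls K p u := by
    rw [cls_eq_iff]
    refine ⟨-1, by simp, ?_⟩
    rw [neg_one_pow_char]
    simp
  rw [← hneg]
  apply Submodule.subset_span
  refine ⟨-(u : K), by simp, ?_, ?_⟩
  · rw [sub_neg_eq_add, ← h]
    exact v.ne_zero
  · congr 2
    · apply Units.ext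
      simp
    · apply Units.ext
      simp [h]

end

section
variable {p : ℕ} [Fact p.Prime] {K L : Type*} [Field K] [CharP K p] [Field L] [CharP L p]

theorem compat_iff (Θ : KOne K p ≃ₗ[ZMod p] KOne L p) (hΘ : IsCompatible Θ) (a b : KOne K p) :
    TensorProduct.tmul (ZMod p) a b ∈ steinberg K p ↔
      TensorProduct.tmul (ZMod p) (Θ a) (Θ b) ∈ steinberg L p := by
  unfold IsCompatible at hΘ
  constructor
  · intro h
    rw [← hΘ]
    exact ⟨_, h, TensorProduct.map_tmul _ _ _ _⟩
  · intro h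
    rw [← hΘ] at h
    obtain ⟨t, ht, hte⟩ := h
    have hinj : Function.Injective (TensorProduct.map Θ.toLinearMap Θ.toLinearMap) :=
      (TensorProduct.congr Θ Θ).injective
    have h1 : TensorProduct.map Θ.toLinearMap Θ.toLinearMap (TensorProduct.tmul (ZMod p) a b) =
        TensorProduct.tmul (ZMod p) (Θ a) (Θ b) := TensorProduct.map_tmul _ _ _ _
    rw [← h1] at hte
    rw [← hinj hte]
    exact ht

theorem isCompatible_symm (Θ : KOne K p ≃ₗ[ZMod p] KOne L p) (hΘ : IsCompatible Θ) :
    IsCompatible Θ.symm := by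
  unfold IsCompatible at hΘ ⊢
  rw [← hΘ, ← Submodule.map_comp, ← TensorProduct.map_comp]
  have h1 : Θ.symm.toLinearMap ∘ₗ Θ.toLinearMap = LinearMap.id := by
    ext x
    simp
  rw [h1, TensorProduct.map_id, Submodule.map_id]

end

end Crest.Agent.R009
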