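import Crest.Agent.R009.Good
import Crest.Agent.R009.Recon
import Crest.Agent.R009.Rigid

/-!
Theorem A: a compatible equivalence is, up to a scalar, induced by a ring homomorphism.
-/

set_option autoImplicit false
set_option linter.unusedSectionVars false

open Crest.NumberTheoryR.MilnorK

namespace Crest.Agent.R009

variable {p : ℕ} [Fact p.Prime] {K L : Type*} [Field K] [CharP K p] [Field L] [CharP L p]

open Classical in
/-- a map of representatives for `Θ` -/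
noncomputable def rep (Θ : KOne K p ≃ₗ[ZMod p] KOne L p) (x : K) : L :=
  if h : x = 0 then 0 else ((Classical.choose (cls_surj (Θ (cls K p (Units.mk0 x h)))) : Lˣ) : L)

theorem rep_zero (Θ : KOne K p ≃ₗ[ZMod p] KOne L p) : rep Θ 0 = 0 := by
  unfold rep
  simp

theorem rep_spec (Θ : KOne K p ≃ₗ[ZMod p] KOne L p) (u : Kˣ) :
    ∃ v : Lˣ, rep Θ (u : K) = (v : L) ∧ cls L p v = Θ (cls K p u) := by
  refine ⟨Classical.choose (cls_surj (Θ (cls K p u))), ?_, ?_⟩
  · unfold rep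
    rw [dif_neg u.ne_zero]
    congr 4
    rw [Units.mk0_val]
  · exact Classical.choose_spec (cls_surj (Θ (cls K p u)))

theorem rep_iff (Θ : KOne K p ≃ₗ[ZMod p] KOne L p) (u : Kˣ) (v : Lˣ) :
    PEq p (rep Θ (u : K)) (v : L) ↔ cls L p v = Θ (cls K p u) := by
  obtain ⟨w, hw, hwc⟩ := rep_spec Θ u
  rw [hw, ← hwc, eq_comm, cls_eq_iff]

theorem rep_ne_zero (Θ : KOne K p ≃ₗ[ZMod p] KOne L p) {x : K} (hx : x ≠ 0) : rep Θ x ≠ 0 := by
  obtain ⟨v, hv, -⟩ := rep_spec Θ (Units.mk0 x hx)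
  rw [Units.val_mk0] at hv
  rw [hv]
  exact v.ne_zero

theorem rep_mul (Θ : KOne K p ≃ₗ[ZMod p] KOne L p) {x y : K} (hx : x ≠ 0) (hy : y ≠ 0) :
    PEq p (rep Θ (x * y)) (rep Θ x * rep Θ y) := by
  obtain ⟨v, hv, hvc⟩ := rep_spec Θ (Units.mk0 x hx)
  obtain ⟨w, hw, hwc⟩ := rep_spec Θ (Units.mk0 y hy)
  rw [Units.val_mk0] at hv hw
  rw [hv, hw]
  have h1 := (rep_iff Θ (Units.mk0 x hx * Units.mk0 y hy) (v * w)).mpr (by
    rw [cls_mul, cls_mul, map_add, hvc, hwc])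
  simpa using h1

theorem rep_pth_iff (Θ : KOne K p ≃ₗ[ZMod p] KOne L p) (x : K) : Pth p x ↔ Pth p (rep Θ x) := by
  by_cases hx : x = 0
  · rw [hx, rep_zero]
    exact ⟨fun _ => pth_zero, fun _ => pth_zero⟩
  · obtain ⟨v, hv, hvc⟩ := rep_spec Θ (Units.mk0 x hx)
    rw [Units.val_mk0] at hv
    rw [hv, ← cls_eq_zero_iff, hvc]
    have h1 : Pth p x ↔ cls K p (Units.mk0 x hx) = 0 := by
      rw [cls_eq_zero_iff, Units.val_mk0]
    rw [h1]
    constructor
    · intro h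
      rw [h, map_zero]
    · intro h
      exact (LinearEquiv.map_eq_zero_iff Θ).mp h

theorem rep_one (Θ : KOne K p ≃ₗ[ZMod p] KOne L p) : Pth p (rep Θ 1) :=
  (rep_pth_iff Θ 1).mp pth_one

theorem rep_add_one (Θ : KOne K p ≃ₗ[ZMod p] KOne L p) (hΘ : IsCompatible Θ) {x q : K}
    (hq : rep Θ q ∈ FX p (rep Θ x)) : rep Θ (1 + q) ∈ FX p (rep Θ x) := by
  by_cases hq0 : q = 0
  · rw [hq0, add_zero]
    exact (rep_one Θ).mem_FX
  by_cases hq1 : 1 + q = 0
  · rw [hq1, rep_zero]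
    exact zero_mem _
  by_cases hpth : Pth p q
  · exact ((rep_pth_iff Θ _).mp (pth_one.add hpth)).mem_FX
  obtain ⟨v, hv, hvc⟩ := rep_spec Θ (Units.mk0 q hq0)
  obtain ⟨w, hw, hwc⟩ := rep_spec Θ (Units.mk0 (1 + q) hq1)
  rw [Units.val_mk0] at hv hw
  have h1 : TensorProduct.tmul (ZMod p) (cls K p (Units.mk0 q hq0))
      (cls K p (Units.mk0 (1 + q) hq1)) ∈ steinberg K p := steinberg_of_line rfl
  rw [compat_iff Θ hΘ, ← hvc, ← hwc] at h1
  have h2 : ¬ Pth p (v : L) := by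
    rw [← hv, ← rep_pth_iff]
    exact hpth
  have h3 := mem_FX_of_steinberg h2 h1
  rw [hv] at hq
  rw [hw]
  exact FX_le hq h3

theorem rep_dep_aux (Θ : KOne K p ≃ₗ[ZMod p] KOne L p) (hΘ : IsCompatible Θ) (x y : K)
    (hy : y ∈ FX p x) : rep Θ y ∈ FX p (rep Θ x) := by
  have hmul : ∀ a b : K, rep Θ a ∈ FX p (rep Θ x) → rep Θ b ∈ FX p (rep Θ x) →
      rep Θ (a * b) ∈ FX p (rep Θ x) := by
    intro a b ha hb
    by_cases ha0 : a = 0
    · rw [ha0, zero_mul, rep_zero]; exact zero_mem _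
    by_cases hb0 : b = 0
    · rw [hb0, mul_zero, rep_zero]; exact zero_mem _
    exact (rep_mul Θ ha0 hb0).symm.mem (mul_mem ha hb)
  have hinv : ∀ a : K, rep Θ a ∈ FX p (rep Θ x) → rep Θ a⁻¹ ∈ FX p (rep Θ x) := by
    intro a ha
    by_cases ha0 : a = 0
    · rw [ha0, inv_zero, rep_zero]; exact zero_mem _
    have h1 := rep_mul Θ ha0 (inv_ne_zero ha0)
    rw [mul_inv_cancel₀ ha0] at h1
    have h2 : rep Θ a * rep Θ a⁻¹ ∈ FX p (rep Θ x) := h1.mem (rep_one Θ).mem_FX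
    have h3 := div_mem h2 ha
    rwa [mul_div_cancel_left₀ _ (rep_ne_zero Θ ha0)] at h3
  let W : Subfield K :=
    { carrier := {w | rep Θ w ∈ FX p (rep Θ x)}
      mul_mem' := fun {a b} ha hb => hmul a b ha hb
      one_mem' := (rep_one Θ).mem_FX
      add_mem' := by
        intro a b ha hb
        by_cases ha0 : a = 0
        · rw [ha0, zero_add]; exact hb
        have h1 : a + b = a * (1 + b / a) := by
          field_simp
        rw [h1]
        refine hmul _ _ ha ?_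
        apply rep_add_one Θ hΘ
        rw [div_eq_mul_inv]
        exact hmul _ _ hb (hinv _ ha)
      zero_mem' := by
        change rep Θ 0 ∈ FX p (rep Θ x)
        rw [rep_zero]; exact zero_mem _
      neg_mem' := by
        intro a ha
        have h1 : -a = (-1) * a := by ring
        rw [h1]
        exact hmul _ _ ((rep_pth_iff Θ _).mp pth_one.neg).mem_FX ha
      inv_mem' := hinv }
  exact FX_le_of (M := W) (fun a => ((rep_pth_iff Θ _).mp (pth_pow a)).mem_FX) (self_mem_FX _) hy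

theorem rep_rep_symm (Θ : KOne K p ≃ₗ[ZMod p] KOne L p) {x : K} (hx : x ≠ 0) :
    PEq p (rep Θ.symm (rep Θ x)) x := by
  obtain ⟨v, hv, hvc⟩ := rep_spec Θ (Units.mk0 x hx)
  rw [Units.val_mk0] at hv
  rw [hv]
  have h1 := (rep_iff Θ.symm v (Units.mk0 x hx)).mpr (by rw [hvc, LinearEquiv.symm_apply_apply])
  rwa [Units.val_mk0] at h1

theorem rep_good (Θ : KOne K p ≃ₗ[ZMod p] KOne L p) (hΘ : IsCompatible Θ) : Good p (rep Θ) where
  zero_iff := by
    intro x
    constructor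
    · intro h
      by_contra hx
      exact rep_ne_zero Θ hx h
    · rintro rfl
      exact rep_zero Θ
  mul := fun x y hx hy => rep_mul Θ hx hy
  pth := rep_pth_iff Θ
  dep := by
    intro x y
    constructor
    · exact rep_dep_aux Θ hΘ x y
    · intro h
      by_cases hy : y = 0
      · rw [hy]; exact zero_mem _
      by_cases hx : x = 0
      · rw [hx, rep_zero, mem_FX_of_pth pth_zero, ← rep_pth_iff] at h
        exact h.mem_FX
      have h1 := rep_dep_aux Θ.symm (isCompatible_symm Θ hΘ) _ _ h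
      rw [(rep_rep_symm Θ hx).FX_eq] at h1
      exact (rep_rep_symm Θ hy).mem h1

theorem theoremA (hd : ∀ x : K, ∃ y, y ∉ FX p x)
    (Θ : KOne K p ≃ₗ[ZMod p] KOne L p) (hΘ : IsCompatible Θ) :
    ∃ c : ℕ, 0 < c ∧ c < p ∧ ∃ α : K →+* L, ∀ u : Kˣ,
      (c : ZMod p) • Θ (cls K p u) = cls L p (Units.map α.toMonoidHom u) := by
  have hgood := rep_good Θ hΘ
  obtain ⟨c, hc0, hc, hP⟩ := hgood.exists_c hd
  have hgood' := hgood.good_pow hc0 hc
  obtain ⟨α, hα⟩ := reconstruct hd (fun x => rep Θ x ^ c) hgood'.zero_iff hgood'.mul hgood'.pth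
    hgood'.dep (by
      intro x hx
      obtain ⟨r, hr, hre⟩ := hP x 1 hx one_ne_zero
      refine ⟨r⁻¹, inv_ne_zero hr, ?_⟩
      rw [one_pow, add_comm x 1] at hre
      refine hre.trans ?_
      refine ⟨r, hr, ?_⟩
      have hrp : r ^ p ≠ 0 := pow_ne_zero p hr
      rw [inv_pow]
      field_simp
      ring)
  refine ⟨c, hc0, hc, α, ?_⟩
  intro u
  obtain ⟨v, hv, hvc⟩ := rep_spec Θ u
  rw [← hvc, ← cls_pow, cls_eq_iff]
  have h1 := hα u u.ne_zero
  simp only [hv] at h1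
  rw [Units.val_pow_eq_pow_val]
  exact h1

end Crest.Agent.R009
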